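import Vale.Agent.P268.T.H839.Sphere

/-!
# Letters: braids in which only the strand `k` moves (P268, block B7)

The other strands `i : Fin r` are constant at `i e`, the strand `k` moves in `XK e k`
(base point `k e`, rim in the subspace `H`). For every family of classes `κ i`, `i ≠ k`, there is
a class `g` of spheroids of `XK e k` such that the class of `(c_k - i e)` (`i < k`) resp.
`(i e - c_k)` (`k < i`) is `κ i`.
-/

namespace Vale.Agent.P268.T.H839

open scoped unitInterval Topology Topology.Homotopy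
open ContinuousMap Vale.Agent.P268.H288

variable {M : Type*} {V : Type*} [NormedAddCommGroup V] [NormedSpace ℝ V]
  {H : Submodule ℝ V} {e : V} {r : ℕ}

/-- The position of the strand `i`. -/
def pos (e : V) (i : Fin r) : V := ((i : ℕ) : ℝ) • e

theorem smul_inj (he : ‖e‖ = 1) {a b : ℝ} (h : a • e = b • e) : a = b := by
  have h1 : (a - b) • e = 0 := by rw [sub_smul, h, sub_self]
  have h2 : e ≠ 0 := fun h0 => by rw [h0, norm_zero] at he; exact zero_ne_one he
  exact sub_eq_zero.1 ((smul_eq_zero.1 h1).resolve_right h2)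

theorem pos_ne (he : ‖e‖ = 1) {i k : Fin r} (h : i ≠ k) : pos e k ≠ pos e i := fun h0 =>
  h (Fin.ext (by exact_mod_cast (smul_inj he h0).symm))

theorem pos_mem (heH : e ∈ H) (i : Fin r) : pos e i ∈ H := H.smul_mem _ heH

/-- The space in which the strand `k` moves. -/
abbrev XK (e : V) (k : Fin r) : Type _ := {p : V // ∀ i : Fin r, i ≠ k → p ≠ pos e i}

/-- The part in the subspace. -/
def AK (H : Submodule ℝ V) (e : V) (k : Fin r) : Set (XK e k) := {p | p.1 ∈ H}

/-- The base point. -/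
def bk (he : ‖e‖ = 1) (k : Fin r) : XK e k := ⟨pos e k, fun _ h => pos_ne he h⟩

theorem bk_mem (he : ‖e‖ = 1) (heH : e ∈ H) (k : Fin r) : bk he k ∈ AK H e k := pos_mem heH k

/-- The sign of `k - i`. -/
def sg (i k : Fin r) : ℝ := if i < k then 1 else -1

theorem sg_ne (i k : Fin r) : sg i k ≠ 0 := by
  unfold sg
  split_ifs <;> norm_num

/-- The normalised difference of the strand `k` and the strand `i`: `c_k - i e` if `i < k` and
`i e - c_k` if `k < i`. -/
noncomputable def df (e : V) {i k : Fin r} (hi : i ≠ k) : C(XK e k, NZ V) :=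
  nrm.comp ⟨fun p => ⟨sg i k • (p.1 - pos e i), smul_ne_zero (sg_ne i k)
    (sub_ne_zero.2 (p.2 i hi))⟩, by
      refine Continuous.subtype_mk ?_ _
      exact (continuous_subtype_val.sub continuous_const).const_smul _⟩

theorem df_val {i k : Fin r} (hi : i ≠ k) (p : XK e k) :
    (df e hi p).1 = ‖sg i k • (p.1 - pos e i)‖⁻¹ • (sg i k • (p.1 - pos e i)) := rfl

theorem df_mem (heH : e ∈ H) {i k : Fin r} (hi : i ≠ k) (p : XK e k) (hp : p ∈ AK H e k) :
    df e hi p ∈ nzH H :=
  H.smul_mem _ (H.smul_mem _ (H.sub_mem hp (pos_mem heH i)))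

theorem sg_pos {i k : Fin r} (hi : i ≠ k) : 0 < sg i k * (((k : ℕ) : ℝ) - ((i : ℕ) : ℝ)) := by
  unfold sg
  split_ifs with h
  · have : ((i : ℕ) : ℝ) < ((k : ℕ) : ℝ) := by exact_mod_cast h
    linarith
  · have h1 : k < i := lt_of_le_of_ne (not_lt.1 h) (Ne.symm hi)
    have : ((k : ℕ) : ℝ) < ((i : ℕ) : ℝ) := by exact_mod_cast h1
    linarith

theorem df_bk (he : ‖e‖ = 1) {i k : Fin r} (hi : i ≠ k) : df e hi (bk he k) = pt e he := by
  refine Subtype.ext ?_
  rw [df_val]
  refine Ray.nrm he ⟨sg i k * (((k : ℕ) : ℝ) - ((i : ℕ) : ℝ)), sg_pos hi, ?_⟩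
  change sg i k • (((k : ℕ) : ℝ) • e - ((i : ℕ) : ℝ) • e) = _
  rw [← sub_smul, smul_smul]
  rfl

/-- The class group of one strand. -/
abbrev GK (M : Type*) (H : Submodule ℝ V) (he : ‖e‖ = 1) (heH : e ∈ H) (k : Fin r) : Type _ :=
  HomotopyGroup M (PP (XK e k) (AK H e k) (bk he k)) (PP.const (bk_mem he heH k))

/-- The class group of a pair. -/
abbrev PI (M : Type*) (H : Submodule ℝ V) (he : ‖e‖ = 1) (heH : e ∈ H) : Type _ :=
  HomotopyGroup M (PP (NZ V) (nzH H) (pt e he)) (PP.const (pt_mem he heH))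

/-- The map of path spaces. -/
noncomputable def dpp (he : ‖e‖ = 1) (heH : e ∈ H) {i k : Fin r} (hi : i ≠ k) :
    C(PP (XK e k) (AK H e k) (bk he k), PP (NZ V) (nzH H) (pt e he)) :=
  PP.map (df e hi) (df_mem heH hi) (df_bk he hi)

theorem dpp_const (he : ‖e‖ = 1) (heH : e ∈ H) {i k : Fin r} (hi : i ≠ k) :
    dpp he heH hi (PP.const (bk_mem he heH k)) = PP.const (pt_mem he heH) :=
  PP.map_const _ _ _ _ _

/-- The pair class of the strands `i` and `k`. -/
noncomputable def cl [DecidableEq M] [Nonempty M] (he : ‖e‖ = 1) (heH : e ∈ H) {i k : Fin r}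
    (hi : i ≠ k) : GK M H he heH k →* PI M H he heH :=
  hmap (dpp he heH hi) (dpp_const he heH hi)

/-! ### One letter -/

section Letter

variable {G : C((M → I) × I, NZ V)} {he : ‖e‖ = 1} (heH : e ∈ H)
  (hG : PP.Rel (nzH H) (pt e he) G) {k : Fin r} {a b : ℝ} (hab : a + b = ((k : ℕ) : ℝ))
  (hne : ∀ i : Fin r, i ≠ k → |a - ((i : ℕ) : ℝ)| ≠ |b|)

theorem aff_sub_pos (y : (M → I) × I) (i : Fin r) :
    aff G e a b y - pos e i = aff G e (a - ((i : ℕ) : ℝ)) b y := by
  rw [aff_apply, aff_apply, pos]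
  module

/-- The strand `k` moves on the sphere with centre `a e` and radius `|b|`. -/
noncomputable def lf : C((M → I) × I, XK e k) :=
  ⟨fun y => ⟨aff G e a b y, fun i hi h0 => by
    refine aff_ne G he (hne i hi) y ?_
    rw [← aff_sub_pos, h0, sub_self]⟩, Continuous.subtype_mk (aff G e a b).continuous _⟩

theorem lf_val (y : (M → I) × I) : (lf (he := he) hne (G := G) y).1 = aff G e a b y := rfl

include heH hG hab in
theorem lf_rel : PP.Rel (AK H e k) (bk he k) (lf (he := he) hne (G := G)) where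
  rim y := H.add_mem (H.smul_mem _ heH) (H.smul_mem _ (un_rim hG y))
  top y := Subtype.ext (by
    rw [lf_val, aff_apply, un_top hG, ← add_smul, hab]; rfl)
  side y hy t := Subtype.ext (by
    rw [lf_val, aff_apply, un_side hG hy, ← add_smul, hab]; rfl)

/-- The letter. -/
noncomputable def lett : Ω^ M (PP (XK e k) (AK H e k) (bk he k)) (PP.const (bk_mem he heH k)) :=
  PP.toGL (bk_mem he heH k) (lf hne) (lf_rel heH hG hab hne)

theorem sg_aff (y : (M → I) × I) (i : Fin r) :
    sg i k • (aff G e a b y - pos e i) =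
      aff G e (sg i k * (a - ((i : ℕ) : ℝ))) (sg i k * b) y := by
  rw [aff_sub_pos, aff_apply, aff_apply]
  module

theorem abs_sg (i k : Fin r) : |sg i k| = 1 := by
  unfold sg
  split_ifs <;> simp

include heH hG hab hne in
theorem good_i {i : Fin r} (hi : i ≠ k) :
    Good H e (aff G e (sg i k * (a - ((i : ℕ) : ℝ))) (sg i k * b)) := by
  refine aff_good heH hG ?_ ?_
  · rw [abs_mul, abs_mul, abs_sg, one_mul, one_mul]
    exact hne i hi
  · have := sg_pos hi
    rw [← hab] at this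
    linarith

variable [DecidableEq M] [Nonempty M]

theorem cl_lett {i : Fin r} (hi : i ≠ k) :
    cl he heH hi (hcl (lett heH hG hab hne)) =
      hcl (glf he heH _ (good_i heH hG hab hne hi)) := by
  rw [cl, hmap_hcl]
  congr 1
  refine GenLoop.ext _ _ fun y => PP.ext fun t => Subtype.ext ?_
  change ‖sg i k • (aff G e a b (y, t) - pos e i)‖⁻¹ •
    (sg i k • (aff G e a b (y, t) - pos e i)) = _
  rw [glf_val, sg_aff]

theorem cl_lett_one {i : Fin r} (hi : i ≠ k) (h : |b| < sg i k * (a - ((i : ℕ) : ℝ))) :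
    cl he heH hi (hcl (lett heH hG hab hne)) = 1 := by
  rw [cl_lett, ← hcl_one, hcl_eq_iff]
  refine aff_one heH ?_ _
  rwa [abs_mul, abs_sg, one_mul]

theorem cl_lett_self {i : Fin r} (hi : i ≠ k) (h : |a - ((i : ℕ) : ℝ)| < sg i k * b) :
    cl he heH hi (hcl (lett heH hG hab hne)) = hcl (PP.toGL (pt_mem he heH) G hG) := by
  rw [cl_lett, hcl_eq_iff]
  refine aff_self heH hG ?_ _
  rwa [abs_mul, abs_sg, one_mul]

end Letter

/-! ### All letters -/

section All

variable [DecidableEq M] [Nonempty M]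

/-- The sphere letters: the `m` neighbours of `k` on one side get the class `κ`. -/
theorem exists_sphere (he : ‖e‖ = 1) (heH : e ∈ H) (k : Fin r) (κ : PI M H he heH) (m : ℕ) :
    (∃ g : GK M H he heH k, ∀ i (hi : i ≠ k), cl he heH hi g =
      if (i : ℕ) < k ∧ (k : ℕ) ≤ i + m then κ else 1) ∧
    ∃ g : GK M H he heH k, ∀ i (hi : i ≠ k), cl he heH hi g =
      if (k : ℕ) < i ∧ (i : ℕ) ≤ k + m then κ else 1 := by
  obtain ⟨q, rfl⟩ := hcl_surj κ
  have hq : hcl (PP.toGL (pt_mem he heH) (PP.ofGL q) (PP.rel_ofGL q)) = hcl q := by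
    rw [PP.toGL_ofGL]
  have hr : (0 : ℝ) < (m : ℝ) / 2 + 1 / 4 := by positivity
  -- distances are never `2 ρ = m + 1 / 2`
  have hhalf : ∀ a b : ℕ, (a : ℝ) - b ≠ (m : ℝ) + 1 / 2 := by
    intro a b h
    have h1 : ((2 * (a : ℤ) - 2 * b - 2 * m : ℤ) : ℝ) = 1 := by push_cast; linarith
    have h2 : 2 * (a : ℤ) - 2 * b - 2 * m = 1 := by exact_mod_cast h1
    omega
  have habs : ∀ i : Fin r, i ≠ k → ∀ s : ℝ, (s = 1 ∨ s = -1) →
      |((k : ℕ) : ℝ) - s * ((m : ℝ) / 2 + 1 / 4) - ((i : ℕ) : ℝ)| ≠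
        |s * ((m : ℝ) / 2 + 1 / 4)| := by
    intro i hi s hs h
    have hki : ((k : ℕ) : ℝ) ≠ ((i : ℕ) : ℝ) := fun h0 =>
      hi (Fin.ext (by exact_mod_cast h0.symm))
    rcases abs_eq_abs.1 h with h1 | h1
    · rcases hs with rfl | rfl
      · refine hhalf k i ?_
        linarith
      · refine hhalf i k ?_
        linarith
    · exact hki (by linarith)
  constructor
  · have hne := fun i hi => habs i hi 1 (Or.inl rfl)
    refine ⟨hcl (lett heH (PP.rel_ofGL q) (k := k)
      (a := ((k : ℕ) : ℝ) - 1 * ((m : ℝ) / 2 + 1 / 4)) (b := 1 * ((m : ℝ) / 2 + 1 / 4)) (by ring)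
      hne), fun i hi => ?_⟩
    split_ifs with h
    · rw [cl_lett_self, hq]
      have h1 : i < k := h.1
      have h2 : ((k : ℕ) : ℝ) ≤ ((i : ℕ) : ℝ) + m := by exact_mod_cast h.2
      have h3 : ((i : ℕ) : ℝ) + 1 ≤ ((k : ℕ) : ℝ) := by exact_mod_cast h.1
      rw [sg, if_pos h1, abs_lt]
      constructor <;> linarith
    · refine cl_lett_one heH (PP.rel_ofGL q) _ hne hi ?_
      rw [one_mul, abs_of_pos hr, sg]
      split_ifs with h1
      · have h2 : (i : ℕ) + m + 1 ≤ k := by
          by_contra h3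
          exact h ⟨h1, by omega⟩
        have h4 : ((i : ℕ) : ℝ) + m + 1 ≤ ((k : ℕ) : ℝ) := by exact_mod_cast h2
        linarith
      · have h2 : k < i := lt_of_le_of_ne (not_lt.1 h1) (Ne.symm hi)
        have h4 : ((k : ℕ) : ℝ) < ((i : ℕ) : ℝ) := by exact_mod_cast h2
        linarith
  · have hne := fun i hi => habs i hi (-1) (Or.inr rfl)
    refine ⟨hcl (lett heH (PP.rel_ofGL q) (k := k)
      (a := ((k : ℕ) : ℝ) - -1 * ((m : ℝ) / 2 + 1 / 4)) (b := -1 * ((m : ℝ) / 2 + 1 / 4))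
      (by ring) hne), fun i hi => ?_⟩
    split_ifs with h
    · rw [cl_lett_self, hq]
      have h1 : ¬ i < k := not_lt.2 h.1.le
      have h2 : ((i : ℕ) : ℝ) ≤ ((k : ℕ) : ℝ) + m := by exact_mod_cast h.2
      have h3 : ((k : ℕ) : ℝ) + 1 ≤ ((i : ℕ) : ℝ) := by exact_mod_cast h.1
      rw [sg, if_neg h1, abs_lt]
      constructor <;> linarith
    · refine cl_lett_one heH (PP.rel_ofGL q) _ hne hi ?_
      rw [neg_one_mul, abs_neg, abs_of_pos hr, sg]
      split_ifs with h1
      · have h4 : ((i : ℕ) : ℝ) < ((k : ℕ) : ℝ) := by exact_mod_cast h1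
        linarith
      · have h0 : (k : ℕ) < i := lt_of_le_of_ne (not_lt.1 h1) (fun h5 => hi (Fin.ext h5.symm))
        have h2 : (k : ℕ) + m + 1 ≤ i := by
          by_contra h3
          exact h ⟨h0, by omega⟩
        have h4 : ((k : ℕ) : ℝ) + m + 1 ≤ ((i : ℕ) : ℝ) := by exact_mod_cast h2
        linarith

/-- A letter for one pair. -/
theorem exists_letter (he : ‖e‖ = 1) (heH : e ∈ H) {k j : Fin r} (hj : j ≠ k)
    (κ : PI M H he heH) :
    ∃ g : GK M H he heH k, cl he heH hj g = κ ∧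
      ∀ i (hi : i ≠ k), i ≠ j → cl he heH hi g = 1 := by
  rcases lt_or_gt_of_ne (fun h => hj (Fin.ext h) : (j : ℕ) ≠ k) with h | h
  · obtain ⟨m, hm⟩ : ∃ m, (k : ℕ) = j + (m + 1) := ⟨k - j - 1, by omega⟩
    obtain ⟨g, hg⟩ := (exists_sphere (M := M) he heH k κ (m + 1)).1
    obtain ⟨g', hg'⟩ := (exists_sphere (M := M) he heH k κ m).1
    refine ⟨g * g'⁻¹, ?_, fun i hi hij => ?_⟩
    · rw [map_mul, map_inv, hg, hg', if_pos ⟨h, by omega⟩, if_neg (by omega), inv_one, mul_one]
    · have hij' : (i : ℕ) ≠ j := fun h0 => hij (Fin.ext h0)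
      rw [map_mul, map_inv, hg, hg']
      by_cases h1 : (i : ℕ) < k ∧ (k : ℕ) ≤ i + m
      · rw [if_pos ⟨h1.1, by omega⟩, if_pos h1, mul_inv_cancel]
      · rw [if_neg (by omega), if_neg h1, inv_one, mul_one]
  · obtain ⟨m, hm⟩ : ∃ m, (j : ℕ) = k + (m + 1) := ⟨j - k - 1, by omega⟩
    obtain ⟨g, hg⟩ := (exists_sphere (M := M) he heH k κ (m + 1)).2
    obtain ⟨g', hg'⟩ := (exists_sphere (M := M) he heH k κ m).2
    refine ⟨g * g'⁻¹, ?_, fun i hi hij => ?_⟩
    · rw [map_mul, map_inv, hg, hg', if_pos ⟨h, by omega⟩, if_neg (by omega), inv_one, mul_one]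
    · have hij' : (i : ℕ) ≠ j := fun h0 => hij (Fin.ext h0)
      rw [map_mul, map_inv, hg, hg']
      by_cases h1 : (k : ℕ) < i ∧ (i : ℕ) ≤ k + m
      · rw [if_pos ⟨h1.1, by omega⟩, if_pos h1, mul_inv_cancel]
      · rw [if_neg (by omega), if_neg h1, inv_one, mul_one]

/-- **Letters.** Every family of pair classes is realised by a motion of the strand `k` alone. -/
theorem exists_family (he : ‖e‖ = 1) (heH : e ∈ H) (k : Fin r) (κ : Fin r → PI M H he heH) :
    ∃ g : GK M H he heH k, ∀ i (hi : i ≠ k), cl he heH hi g = κ i := by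
  classical
  have key : ∀ s : Finset (Fin r), ∃ g : GK M H he heH k,
      ∀ i (hi : i ≠ k), cl he heH hi g = if i ∈ s then κ i else 1 := by
    intro s
    induction s using Finset.induction_on with
    | empty => exact ⟨1, fun i hi => by rw [map_one, if_neg (Finset.notMem_empty i)]⟩
    | insert j s hjs ih =>
      obtain ⟨g, hg⟩ := ih
      by_cases hj : j = k
      · refine ⟨g, fun i hi => ?_⟩
        rw [hg]
        have : i ∈ insert j s ↔ i ∈ s := by
          rw [Finset.mem_insert]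
          exact ⟨fun h => h.resolve_left fun h0 => hi (h0.trans hj), Or.inr⟩
        rw [if_congr this rfl rfl]
      · obtain ⟨g', h1, h2⟩ := exists_letter (M := M) he heH hj (κ j)
        refine ⟨g' * g, fun i hi => ?_⟩
        rw [map_mul, hg]
        by_cases hij : i = j
        · subst hij
          rw [if_neg hjs, if_pos (Finset.mem_insert_self _ _), mul_one]
          exact h1
        · rw [h2 i hi hij, one_mul]
          have : i ∈ insert j s ↔ i ∈ s := by
            rw [Finset.mem_insert]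
            exact ⟨fun h => h.resolve_left hij, Or.inr⟩
          rw [if_congr this rfl rfl]
  obtain ⟨g, hg⟩ := key Finset.univ
  exact ⟨g, fun i hi => by rw [hg, if_pos (Finset.mem_univ i)]⟩

/-- The same with a generalized loop. -/
theorem exists_family_loop (he : ‖e‖ = 1) (heH : e ∈ H) (k : Fin r)
    (κ : Fin r → PI M H he heH) :
    ∃ q : Ω^ M (PP (XK e k) (AK H e k) (bk he k)) (PP.const (bk_mem he heH k)),
      ∀ i (hi : i ≠ k), cl he heH hi (hcl q) = κ i := by
  obtain ⟨g, hg⟩ := exists_family (M := M) he heH k κ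
  obtain ⟨q, rfl⟩ := hcl_surj g
  exact ⟨q, hg⟩

end All

end Vale.Agent.P268.T.H839
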