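import Vale.Agent.P268.T.A109.Types
import Vale.Agent.P268.T.H839.Letters

/-!
# Letters in the configuration space (P268, block B7)

For every family of pair classes `κ i` and every twist `τ` there is a braid in which only the
strand `k` moves, with these classes and this twist (`Fr.letters`). The other classes of such a
braid are trivial (`OnlyMoves.clsU_eq_one`, `OnlyMoves.twH_eq_one`).
-/

namespace Vale.Agent.P268.T.H839

open scoped unitInterval Topology Topology.Homotopy RealInnerProductSpace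
open ContinuousMap Vale.Agent.P268.H288 Vale.Agent.P268.T.A109

variable {V : Type*} [NormedAddCommGroup V] [InnerProductSpace ℝ V] (φ : Fr V)

/-- The page of the slab as a subspace. -/
def hSub : Submodule ℝ V where
  carrier := {v | ⟪φ.h, v⟫ = 0}
  add_mem' {a b} ha hb := by
    have h1 : ⟪φ.h, a⟫ = 0 := ha
    have h2 : ⟪φ.h, b⟫ = 0 := hb
    show ⟪φ.h, a + b⟫ = 0
    rw [inner_add_right, h1, h2, add_zero]
  zero_mem' := inner_zero_right _
  smul_mem' c x hx := by
    have h1 : ⟪φ.h, x⟫ = 0 := hx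
    show ⟪φ.h, c • x⟫ = 0
    rw [inner_smul_right, h1, mul_zero]

theorem mem_hSub {v : V} : v ∈ hSub φ ↔ ⟪φ.h, v⟫ = 0 := Iff.rfl

theorem e_mem : φ.e ∈ hSub φ := φ.heh

theorem nzH_eq : nzH (hSub φ) = φ.A0 := rfl

theorem pt_eq : pt φ.e φ.he = φ.e0 := rfl

variable {r : ℕ}

/-- The configuration in which only the strand `k` moves. -/
def incFun (k : Fin r) (z : XK φ.e k × S1 V) (i : Fin r) : V :=
  if i = k then z.1.1 + φ.e else φ.base r i

theorem base_eq (i : Fin r) : φ.base r i = pos φ.e i + φ.e := by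
  show (((i : ℕ) : ℝ) + 1) • φ.e = ((i : ℕ) : ℝ) • φ.e + φ.e
  rw [add_smul, one_smul]

theorem incFun_inj (k : Fin r) (z : XK φ.e k × S1 V) : Function.Injective (incFun φ k z) := by
  intro i j h
  unfold incFun at h
  split_ifs at h with h1 h2 h2
  · exact h1.trans h2.symm
  · rw [base_eq] at h
    exact absurd (add_right_cancel h) (z.1.2 j h2)
  · rw [base_eq] at h
    exact absurd (add_right_cancel h).symm (z.1.2 i h1)
  · exact φ.base_inj r h

/-- Insertion of the moving strand. -/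
def inc (k : Fin r) : C(XK φ.e k × S1 V, BX V r) where
  toFun z := (⟨incFun φ k z, incFun_inj φ k z⟩, fun i => if i = k then z.2 else φ.h1)
  continuous_toFun := by
    refine Continuous.prodMk (Continuous.subtype_mk (continuous_pi fun i => ?_) _)
      (continuous_pi fun i => ?_)
    · unfold incFun
      split_ifs
      · exact (continuous_subtype_val.comp continuous_fst).add continuous_const
      · exact continuous_const
    · split_ifs
      · exact continuous_snd
      · exact continuous_const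

theorem inc_pos (k : Fin r) (z : XK φ.e k × S1 V) (i : Fin r) :
    (inc φ k z).1.1 i = if i = k then z.1.1 + φ.e else φ.base r i := rfl

theorem inc_nrm (k : Fin r) (z : XK φ.e k × S1 V) (i : Fin r) :
    (inc φ k z).2 i = if i = k then z.2 else φ.h1 := rfl

theorem inc_mem (k : Fin r) :
    ∀ z ∈ AK (hSub φ) φ.e k ×ˢ ({φ.h1} : Set (S1 V)), inc φ k z ∈ φ.BA r := by
  rintro ⟨p, s⟩ ⟨hp, hs⟩
  have hp' : p.1 ∈ hSub φ := hp
  refine ⟨fun i => ?_, fun i => ?_⟩
  · rw [inc_pos]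
    split_ifs
    · exact (hSub φ).add_mem hp' (e_mem φ)
    · exact (φ.bx_mem r).1 i
  · rw [inc_nrm]
    split_ifs
    · exact hs
    · rfl

theorem inc_base (k : Fin r) : inc φ k (bk φ.he k, φ.h1) = φ.bx r := by
  refine Prod.ext (Subtype.ext (funext fun i => ?_)) (funext fun i => ?_)
  · show (if i = k then pos φ.e k + φ.e else φ.base r i) = φ.base r i
    split_ifs with h
    · rw [h, base_eq]
    · rfl
  · show (if i = k then φ.h1 else φ.h1) = φ.h1
    rw [ite_self]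

variable {M : Type*}

theorem pair_mem (k : Fin r) :
    (bk φ.he k, φ.h1) ∈ AK (hSub φ) φ.e k ×ˢ ({φ.h1} : Set (S1 V)) :=
  Set.mk_mem_prod (bk_mem φ.he (e_mem φ) k) φ.h1_mem

/-- The pair of a strand and a normal. -/
noncomputable def pairGL {k : Fin r} (q : RL M (bk_mem φ.he (e_mem φ) k)) (n : φ.PhiL M) :
    RL M (pair_mem φ k) :=
  PP.toGL (pair_mem φ k) ((PP.ofGL q).prodMk (PP.ofGL n))
    ⟨fun y => Set.mk_mem_prod ((PP.rel_ofGL q).rim y) ((PP.rel_ofGL n).rim y),
      fun y => Prod.ext ((PP.rel_ofGL q).top y) ((PP.rel_ofGL n).top y),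
      fun y hy t => Prod.ext ((PP.rel_ofGL q).side y hy t) ((PP.rel_ofGL n).side y hy t)⟩

/-- The braid of a moving strand and its normal. -/
noncomputable def brOf {k : Fin r} (q : RL M (bk_mem φ.he (e_mem φ) k)) (n : φ.PhiL M) :
    φ.BrL M r :=
  rlMap (inc φ k) (inc_mem φ k) (inc_base φ k) (pair_mem φ k) (φ.bx_mem r) (pairGL φ q n)

theorem brOf_apply {k : Fin r} (q : RL M (bk_mem φ.he (e_mem φ) k)) (n : φ.PhiL M) (y : M → I)
    (t : I) : (brOf φ q n y).1 t = inc φ k ((q y).1 t, (n y).1 t) := rfl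

theorem brOf_onlyMoves {k : Fin r} (q : RL M (bk_mem φ.he (e_mem φ) k)) (n : φ.PhiL M) :
    φ.OnlyMoves k (brOf φ q n) := by
  intro y t i hi
  rw [brOf_apply, inc_pos, inc_nrm, if_neg hi, if_neg hi]
  exact ⟨rfl, rfl⟩

/-! ### The pair difference of the moving strand -/

/-- The constant `|k - i|⁻¹`. -/
noncomputable def ci (i k : Fin r) : ℝ := |((k : ℕ) : ℝ) - ((i : ℕ) : ℝ)|⁻¹

theorem ci_pos {i k : Fin r} (hi : i ≠ k) : 0 < ci i k := by
  refine inv_pos.2 (abs_pos.2 (sub_ne_zero.2 fun h => hi (Fin.ext ?_)))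
  exact_mod_cast h.symm

/-- The scaled difference. -/
noncomputable def dfs {i k : Fin r} (hi : i ≠ k) : C(XK φ.e k, V0 V) where
  toFun p := ⟨ci i k • (sg i k • (p.1 - pos φ.e i)), smul_ne_zero (ci_pos hi).ne'
    (smul_ne_zero (sg_ne i k) (sub_ne_zero.2 (p.2 i hi)))⟩
  continuous_toFun := by
    refine Continuous.subtype_mk ?_ _
    exact ((continuous_subtype_val.sub continuous_const).const_smul _).const_smul _

theorem dfs_mem {i k : Fin r} (hi : i ≠ k) :
    ∀ p ∈ AK (hSub φ) φ.e k, dfs φ hi p ∈ φ.A0 := by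
  intro p hp
  exact (hSub φ).smul_mem _ ((hSub φ).smul_mem _ ((hSub φ).sub_mem hp (pos_mem (e_mem φ) i)))

theorem sg_abs {i k : Fin r} (hi : i ≠ k) :
    sg i k * (((k : ℕ) : ℝ) - ((i : ℕ) : ℝ)) = |((k : ℕ) : ℝ) - ((i : ℕ) : ℝ)| := by
  have h := sg_pos hi
  rw [← abs_of_pos h, abs_mul, abs_sg, one_mul]

theorem sg_pos_sub {i k : Fin r} (hi : i ≠ k) :
    sg i k • (pos φ.e k - pos φ.e i) = |((k : ℕ) : ℝ) - ((i : ℕ) : ℝ)| • φ.e := by
  rw [← sg_abs hi, pos, pos, ← sub_smul, smul_smul]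

theorem dfs_base {i k : Fin r} (hi : i ≠ k) : dfs φ hi (bk φ.he k) = φ.e0 := by
  refine Subtype.ext ?_
  show ci i k • (sg i k • (pos φ.e k - pos φ.e i)) = φ.e
  rw [sg_pos_sub φ hi, smul_smul, ci, inv_mul_cancel₀, one_smul]
  exact (inv_pos.1 (ci_pos hi)).ne'

section Group

variable [DecidableEq M] [Nonempty M]

/-- The scaled difference and the normalised difference have the same classes. -/
theorem rmap_dfs {i k : Fin r} (hi : i ≠ k) (x : RG M (bk_mem φ.he (e_mem φ) k)) :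
    rmap (dfs φ hi) (dfs_mem φ hi) (dfs_base φ hi) (bk_mem φ.he (e_mem φ) k) φ.e0_mem x =
      cl φ.he (e_mem φ) hi x := by
  have hw : ∀ p : XK φ.e k, sg i k • (p.1 - pos φ.e i) ≠ 0 := fun p =>
    smul_ne_zero (sg_ne i k) (sub_ne_zero.2 (p.2 i hi))
  have hc : Continuous fun p : XK φ.e k => sg i k • (p.1 - pos φ.e i) :=
    (continuous_subtype_val.sub continuous_const).const_smul _
  have hp : ∀ z : I × XK φ.e k,
      0 < (1 - (z.1 : ℝ)) * ci i k + (z.1 : ℝ) * ‖sg i k • (z.2.1 - pos φ.e i)‖⁻¹ := by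
    intro z
    have h2 : 0 < ‖sg i k • (z.2.1 - pos φ.e i)‖⁻¹ := inv_pos.2 (norm_pos_iff.2 (hw z.2))
    have h3 := ci_pos hi
    rcases eq_or_lt_of_le z.1.2.1 with h4 | h4
    · rw [← h4]; simpa using h3
    · exact add_pos_of_nonneg_of_pos (mul_nonneg (by linarith [z.1.2.2]) h3.le)
        (mul_pos h4 h2)
  refine rmap_homotopic (g := df φ.e hi) (df_mem (e_mem φ) hi) (df_bk φ.he hi)
    ⟨fun z => ⟨((1 - (z.1 : ℝ)) * ci i k + (z.1 : ℝ) * ‖sg i k • (z.2.1 - pos φ.e i)‖⁻¹) •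
      (sg i k • (z.2.1 - pos φ.e i)), smul_ne_zero (hp z).ne' (hw z.2)⟩, ?_⟩
    (fun p => Subtype.ext ?_) (fun p => Subtype.ext ?_) (fun s p hpA => ?_)
    (fun s => Subtype.ext ?_) x
  · refine Continuous.subtype_mk ?_ _
    have h6 : Continuous fun z : I × XK φ.e k => sg i k • (z.2.1 - pos φ.e i) :=
      hc.comp continuous_snd
    have h5 : Continuous fun z : I × XK φ.e k => ‖sg i k • (z.2.1 - pos φ.e i)‖⁻¹ :=
      h6.norm.inv₀ fun z => norm_ne_zero_iff.2 (hw z.2)
    have h7 : Continuous fun z : I × XK φ.e k => (z.1 : ℝ) :=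
      continuous_subtype_val.comp continuous_fst
    exact (((continuous_const.sub h7).mul continuous_const).add (h7.mul h5)).smul h6
  · show ((1 - ((0 : I) : ℝ)) * ci i k + ((0 : I) : ℝ) * ‖sg i k • (p.1 - pos φ.e i)‖⁻¹) •
      (sg i k • (p.1 - pos φ.e i)) = ci i k • (sg i k • (p.1 - pos φ.e i))
    simp
  · show ((1 - ((1 : I) : ℝ)) * ci i k + ((1 : I) : ℝ) * ‖sg i k • (p.1 - pos φ.e i)‖⁻¹) •
      (sg i k • (p.1 - pos φ.e i)) =
        ‖sg i k • (p.1 - pos φ.e i)‖⁻¹ • (sg i k • (p.1 - pos φ.e i))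
    simp
  · exact (hSub φ).smul_mem _ ((hSub φ).smul_mem _
      ((hSub φ).sub_mem hpA (pos_mem (e_mem φ) i)))
  · show ((1 - (s : ℝ)) * ci i k + (s : ℝ) * ‖sg i k • (pos φ.e k - pos φ.e i)‖⁻¹) •
      (sg i k • (pos φ.e k - pos φ.e i)) = φ.e
    have h8 : ‖sg i k • (pos φ.e k - pos φ.e i)‖⁻¹ = ci i k := by
      rw [sg_pos_sub φ hi, norm_smul, φ.he, mul_one, Real.norm_eq_abs, abs_abs, ci]
    have h9 : (1 - (s : ℝ)) * ci i k + (s : ℝ) * ci i k = ci i k := by ring
    rw [h8, h9, sg_pos_sub φ hi, smul_smul, ci, inv_mul_cancel₀, one_smul]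
    exact (inv_pos.1 (ci_pos hi)).ne'

/-- The class of the pair `{i, k}`. -/
theorem clsU_brOf {i k : Fin r} (hi : i ≠ k) (q : RL M (bk_mem φ.he (e_mem φ) k))
    (n : φ.PhiL M) :
    φ.clsU M i k (hcl (brOf φ q n)) = cl φ.he (e_mem φ) hi (hcl q) := by
  rw [← rmap_dfs φ hi]
  rcases lt_or_gt_of_ne hi with h | h
  · rw [φ.clsU_of_lt h]
    unfold Fr.clsH
    rw [rmap_hcl, rmap_hcl]
    congr 1
    refine GenLoop.ext _ _ fun y => PP.ext fun t => Subtype.ext ?_
    show ((k : ℝ) - i)⁻¹ • ((if k = k then ((q y).1 t).1 + φ.e else φ.base r k) -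
      (if i = k then ((q y).1 t).1 + φ.e else φ.base r i)) =
      ci i k • (sg i k • (((q y).1 t).1 - pos φ.e i))
    have h1 : sg i k = 1 := if_pos h
    have h2 : 0 < ((k : ℕ) : ℝ) - ((i : ℕ) : ℝ) := by
      have h3 := sg_pos hi
      rwa [h1, one_mul] at h3
    rw [if_pos rfl, if_neg hi, base_eq, h1, one_smul, ci, abs_of_pos h2,
      add_sub_add_right_eq_sub]
  · rw [φ.clsU_comm, φ.clsU_of_lt h]
    unfold Fr.clsH
    rw [rmap_hcl, rmap_hcl]
    congr 1
    refine GenLoop.ext _ _ fun y => PP.ext fun t => Subtype.ext ?_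
    show ((i : ℝ) - k)⁻¹ • ((if i = k then ((q y).1 t).1 + φ.e else φ.base r i) -
      (if k = k then ((q y).1 t).1 + φ.e else φ.base r k)) =
      ci i k • (sg i k • (((q y).1 t).1 - pos φ.e i))
    have h1 : sg i k = -1 := if_neg h.asymm
    have h2 : ((k : ℕ) : ℝ) - ((i : ℕ) : ℝ) < 0 := by
      have h3 := sg_pos hi
      rw [h1] at h3
      linarith
    rw [if_pos rfl, if_neg hi, base_eq, h1, neg_one_smul, ci, abs_of_neg h2,
      add_sub_add_right_eq_sub, neg_sub, neg_sub]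

/-- The twist of the moving strand. -/
theorem twH_brOf {k : Fin r} (q : RL M (bk_mem φ.he (e_mem φ) k)) (n : φ.PhiL M) :
    φ.twH M k (hcl (brOf φ q n)) = hcl n := by
  unfold Fr.twH
  rw [rmap_hcl]
  congr 1
  refine GenLoop.ext _ _ fun y => PP.ext fun t => ?_
  show (if k = k then (n y).1 t else φ.h1) = (n y).1 t
  rw [if_pos rfl]

/-- **Letters.** Every family of pair classes and every twist is realised by a motion of the
strand `k` alone. -/
theorem letters (k : Fin r) (κ : Fin r → φ.PiG M) (τ : φ.PhiG M) :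
    ∃ b : φ.BrL M r, φ.OnlyMoves k b ∧ (∀ i, i ≠ k → φ.clsU M i k (hcl b) = κ i) ∧
      φ.twH M k (hcl b) = τ := by
  obtain ⟨q, hq⟩ := exists_family_loop (M := M) φ.he (e_mem φ) k κ
  obtain ⟨n, rfl⟩ := hcl_surj τ
  exact ⟨brOf φ q n, brOf_onlyMoves φ q n,
    fun i hi => (clsU_brOf φ hi q n).trans (hq i hi), twH_brOf φ q n⟩

/-- The twists of the other strands are trivial. -/
theorem twH_eq_one {k : Fin r} {b : φ.BrL M r} (hb : φ.OnlyMoves k b) {i : Fin r} (hi : i ≠ k) :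
    φ.twH M i (hcl b) = 1 := by
  unfold Fr.twH
  rw [rmap_hcl, ← hcl_one]
  congr 1
  refine GenLoop.ext _ _ fun y => PP.ext fun t => ?_
  exact (hb y t i hi).2

/-- The classes of the pairs which do not contain `k` are trivial. -/
theorem clsH_eq_one {k : Fin r} {b : φ.BrL M r} (hb : φ.OnlyMoves k b) {i j : Fin r}
    (hij : i < j) (hi : i ≠ k) (hj : j ≠ k) : φ.clsH M hij (hcl b) = 1 := by
  unfold Fr.clsH
  rw [rmap_hcl, ← hcl_one]
  congr 1
  refine GenLoop.ext _ _ fun y => PP.ext fun t => ?_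
  have h1 : Fr.dif hij ((b y).1 t) = Fr.dif hij (φ.bx r) := by
    refine Subtype.ext ?_
    rw [Fr.dif_apply, Fr.dif_apply, (hb y t i hi).1, (hb y t j hj).1]
    rfl
  exact h1.trans (φ.dif_bx hij)

theorem clsU_eq_one {k : Fin r} {b : φ.BrL M r} (hb : φ.OnlyMoves k b) {i j : Fin r}
    (hi : i ≠ k) (hj : j ≠ k) : φ.clsU M i j (hcl b) = 1 := by
  rcases lt_trichotomy i j with h | h | h
  · rw [φ.clsU_of_lt h]
    exact clsH_eq_one φ hb h hi hj
  · subst h
    unfold Fr.clsU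
    rw [dif_neg (lt_irrefl _), dif_neg (lt_irrefl _)]
    rfl
  · rw [φ.clsU_comm, φ.clsU_of_lt h]
    exact clsH_eq_one φ hb h hj hi

/-- The classes of a strand which does not move. -/
theorem twH_of_fixed {k : Fin r} {b : φ.BrL M r} (hb : φ.Fixed k b) :
    φ.twH M k (hcl b) = 1 := by
  unfold Fr.twH
  rw [rmap_hcl, ← hcl_one]
  congr 1
  refine GenLoop.ext _ _ fun y => PP.ext fun t => ?_
  exact (hb y t).2

end Group

end Vale.Agent.P268.T.H839
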