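import Vale.Agent.P268.T.A109.Assembly
import Vale.Agent.P268.T.H839.Adapt

/-!
# The classes of a slide (P268, blocks B6, B7)

* `am φ v = - R_v e`, the displacement direction of a parallel copy (`‖am φ v‖ = 1`).
* `parC`: the braid with strand `k` replaced by the parallel copy `c_j + σ ρ am θ` of the strand
  `j`, with the normal of `j` (`σ = ± 1` the sign of `k - j`).
* the classes of the parallel copy and of the result of a slide: `slideOut`.
-/

namespace Vale.Agent.P268.T.H839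

open scoped unitInterval Topology Topology.Homotopy RealInnerProductSpace
open ContinuousMap Vale.Agent.P268.H288 Vale.Agent.P268.T.A109

variable {V : Type*} [NormedAddCommGroup V] [InnerProductSpace ℝ V] (φ : Fr V)

/-! ### The direction of a parallel copy -/

/-- The direction `- R_v e`. -/
noncomputable def am : C(V0 V, V) where
  toFun v := - rf (v : V) φ.e
  continuous_toFun := by
    have hv : ∀ v : V0 V, ⟪(v : V), (v : V)⟫ ≠ 0 := fun v => inner_self_ne_zero.mpr v.2
    unfold rf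
    fun_prop (disch := exact hv _)

theorem am_apply (v : V0 V) : am φ v = - rf (v : V) φ.e := rfl

theorem norm_am (v : V0 V) : ‖am φ v‖ = 1 := by
  rw [am_apply, norm_neg, norm_rf v.2, φ.he]

theorem am_ne (v : V0 V) : am φ v ≠ 0 := fun h => by
  have := norm_am φ v
  rw [h, norm_zero] at this
  exact zero_ne_one this

theorem inner_self_pos (v : V0 V) : 0 < ⟪(v : V), (v : V)⟫ :=
  lt_of_le_of_ne real_inner_self_nonneg (inner_self_ne_zero.mpr v.2).symm

theorem deltaMap_eq (v : V0 V) : (φ.deltaMap v : V) = ⟪(v : V), (v : V)⟫ • am φ v := by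
  have hv : ⟪(v : V), (v : V)⟫ ≠ 0 := (inner_self_pos v).ne'
  rw [Fr.deltaMap_apply, am_apply, rf]
  match_scalars
  · field_simp
  · ring

theorem am_mem {v : V0 V} (hv : v ∈ φ.A0) : am φ v ∈ hSub φ := by
  have h0 : (v : V) ∈ hSub φ := hv
  exact (hSub φ).neg_mem ((hSub φ).sub_mem (e_mem φ) ((hSub φ).smul_mem _ h0))

theorem am_e0 : am φ φ.e0 = φ.e := by
  show -(φ.e - (2 * (⟪φ.e, φ.e⟫ / ⟪φ.e, φ.e⟫)) • φ.e) = φ.e
  rw [div_self (inner_self_ne_zero.mpr φ.e_ne)]
  module

/-- The direction of the parallel copy is orthogonal to the normal. -/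
theorem inner_am_psi (v : V0 V) : ⟪am φ v, (φ.psiMap v : V)⟫ = 0 := by
  have hv : ⟪(v : V), (v : V)⟫ ≠ 0 := (inner_self_pos v).ne'
  have h1 : ⟪(v : V), φ.e⟫ = ⟪φ.e, (v : V)⟫ := real_inner_comm _ _
  have h2 : ⟪(v : V), φ.h⟫ = ⟪φ.h, (v : V)⟫ := real_inner_comm _ _
  have h3 : ⟪φ.e, φ.h⟫ = 0 := (real_inner_comm _ _).trans φ.heh
  rw [am_apply, Fr.psiMap_apply, rf, rf, inner_neg_left, inner_sub_left, inner_sub_right,
    inner_sub_right, inner_smul_left, inner_smul_left, inner_smul_right, inner_smul_right,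
    h2, h3]
  simp only [conj_trivial]
  field_simp
  ring

/-! ### Classes as classes of nonvanishing functions -/

section Cls

variable {M : Type*}

/-- A loop whose values are positive multiples of the values of a good function. -/
theorem hcl_eq_glf [DecidableEq M] [Nonempty M] {p : φ.PiL M} {F : C((M → I) × I, V)}
    (hF : Good (hSub φ) φ.e F)
    (h : ∀ y t, ∃ a : ℝ, 0 < a ∧ ((p y).1 t).1 = a • F (y, t)) :
    hcl p = hcl (glf φ.he (e_mem φ) F hF) := by
  have hR : PP.Rel (nzH (hSub φ)) (pt φ.e φ.he) (PP.ofGL p) := PP.rel_ofGL p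
  have hg : Good (hSub φ) φ.e (aff (PP.ofGL p) φ.e 0 1) :=
    aff_good (e_mem φ) hR (by norm_num) (by norm_num)
  have h1 := aff_self (e_mem φ) hR (a := 0) (b := 1) (by norm_num) hg
  have h2 : glf φ.he (e_mem φ) (aff (PP.ofGL p) φ.e 0 1) hg = glf φ.he (e_mem φ) F hF := by
    refine GenLoop.ext _ _ fun y => PP.ext fun t => Subtype.ext ?_
    rw [glf_val, glf_val, aff_apply, zero_smul, zero_add, one_smul, norm_un, inv_one, one_smul,
      un_apply]
    obtain ⟨a, ha, h3⟩ := h y t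
    have h4 : (PP.ofGL p (y, t)).1 = a • F (y, t) := h3
    rw [h4, norm_smul, Real.norm_of_nonneg ha.le, smul_smul, mul_inv, mul_comm a⁻¹, mul_assoc,
      inv_mul_cancel₀ ha.ne', mul_one]
  have h5 : PP.toGL (pt_mem φ.he (e_mem φ)) (PP.ofGL p) hR = p := PP.toGL_ofGL p
  rw [h5, h2] at h1
  exact (hcl_eq_iff.2 h1).symm

variable {r : ℕ}

/-- The signed difference of two strands. -/
noncomputable def du (i l : Fin r) (F : C((M → I) × I, BX V r)) : C((M → I) × I, V) where
  toFun q := sg i l • ((F q).1.1 l - (F q).1.1 i)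
  continuous_toFun := by
    have hk : ∀ k : Fin r, Continuous fun c : BX V r => c.1.1 k := fun k =>
      (continuous_apply k).comp (continuous_subtype_val.comp continuous_fst)
    exact (((hk l).comp F.continuous).sub ((hk i).comp F.continuous)).const_smul _

theorem du_apply (i l : Fin r) (F : C((M → I) × I, BX V r)) (q : (M → I) × I) :
    du i l F q = sg i l • ((F q).1.1 l - (F q).1.1 i) := rfl

theorem du_bx {i l : Fin r} (h : i ≠ l) :
    Ray φ.e (sg i l • ((φ.bx r).1.1 l - (φ.bx r).1.1 i)) := by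
  refine ⟨sg i l * (((l : ℕ) : ℝ) - ((i : ℕ) : ℝ)), sg_pos h, ?_⟩
  show sg i l • ((((l : ℕ) : ℝ) + 1) • φ.e - (((i : ℕ) : ℝ) + 1) • φ.e) = _
  rw [← sub_smul, smul_smul]
  congr 1
  ring

theorem du_good {i l : Fin r} (h : i ≠ l) {F : C((M → I) × I, BX V r)}
    (hF : PP.Rel (φ.BA r) (φ.bx r) F) : Good (hSub φ) φ.e (du i l F) where
  ne q := smul_ne_zero (sg_ne i l) (sub_ne_zero.2 fun h0 => h ((F q).1.2 h0).symm)
  rim y := (hSub φ).smul_mem _ ((hSub φ).sub_mem ((hF.rim y).1 l) ((hF.rim y).1 i))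
  top y := by
    rw [du_apply, hF.top y]
    exact du_bx φ h
  side y hy t := by
    rw [du_apply, hF.side y hy t]
    exact du_bx φ h

variable [DecidableEq M] [Nonempty M]

/-- The class of a pair as the class of the difference. -/
theorem clsU_toGL {i l : Fin r} (h : i ≠ l) {F : C((M → I) × I, BX V r)}
    (hF : PP.Rel (φ.BA r) (φ.bx r) F) :
    φ.clsU M i l (hcl (PP.toGL (φ.bx_mem r) F hF)) =
      hcl (glf φ.he (e_mem φ) (du i l F) (du_good φ h hF)) := by
  rcases lt_or_gt_of_ne h with h1 | h1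
  · rw [φ.clsU_of_lt h1]
    unfold Fr.clsH
    rw [rmap_hcl]
    refine hcl_eq_glf φ _ fun y t => ⟨((l : ℝ) - i)⁻¹, ?_, ?_⟩
    · have h2 : ((i : ℕ) : ℝ) < ((l : ℕ) : ℝ) := by exact_mod_cast h1
      exact inv_pos.2 (by linarith)
    · have h3 : sg i l = 1 := if_pos h1
      show ((l : ℝ) - i)⁻¹ • ((F (y, t)).1.1 l - (F (y, t)).1.1 i) = _
      rw [du_apply, h3, one_smul]
  · rw [φ.clsU_comm, φ.clsU_of_lt h1]
    unfold Fr.clsH
    rw [rmap_hcl]
    refine hcl_eq_glf φ _ fun y t => ⟨((i : ℝ) - l)⁻¹, ?_, ?_⟩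
    · have h2 : ((l : ℕ) : ℝ) < ((i : ℕ) : ℝ) := by exact_mod_cast h1
      exact inv_pos.2 (by linarith)
    · have h3 : sg i l = -1 := if_neg h1.asymm
      show ((i : ℝ) - l)⁻¹ • ((F (y, t)).1.1 i - (F (y, t)).1.1 l) = _
      rw [du_apply, h3, neg_one_smul, neg_sub]

theorem clsU_self (i : Fin r) (x : φ.Br M r) : φ.clsU M i i x = 1 := by
  unfold Fr.clsU
  rw [dif_neg (lt_irrefl _), dif_neg (lt_irrefl _)]
  rfl

/-- Pair classes depend on the positions of the two strands only. -/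
theorem clsU_congr {i l : Fin r} {b c : φ.BrL M r}
    (hi : ∀ y t, ((b y).1 t).1.1 i = ((c y).1 t).1.1 i)
    (hl : ∀ y t, ((b y).1 t).1.1 l = ((c y).1 t).1.1 l) :
    φ.clsU M i l (hcl b) = φ.clsU M i l (hcl c) := by
  rcases eq_or_ne i l with h | h
  · subst h
    rw [clsU_self, clsU_self]
  · rw [← PP.toGL_ofGL b, ← PP.toGL_ofGL c, clsU_toGL φ h (PP.rel_ofGL b),
      clsU_toGL φ h (PP.rel_ofGL c)]
    congr 1
    refine GenLoop.ext _ _ fun y => PP.ext fun t => Subtype.ext ?_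
    rw [glf_val, glf_val, du_apply, du_apply]
    have h1 : (PP.ofGL b (y, t)).1.1 i = (PP.ofGL c (y, t)).1.1 i := hi y t
    have h2 : (PP.ofGL b (y, t)).1.1 l = (PP.ofGL c (y, t)).1.1 l := hl y t
    rw [h1, h2]

/-- Twists depend on the normal of the strand only. -/
theorem twH_congr {i l : Fin r} {b c : φ.BrL M r}
    (h : ∀ y t, ((b y).1 t).2 i = ((c y).1 t).2 l) :
    φ.twH M i (hcl b) = φ.twH M l (hcl c) := by
  unfold Fr.twH
  rw [rmap_hcl, rmap_hcl]
  congr 1
  exact GenLoop.ext _ _ fun y => PP.ext fun t => h y t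

end Cls

/-! ### The parallel copy -/

section Par

variable {M : Type*} {r : ℕ}

/-- Data of a parallel copy of the strand `j`, with number `k`. -/
structure ParD (j k : Fin r) (c : C((M → I) × I, BX V r)) (θ : C((M → I) × I, V0 V))
    (ρ : C((M → I) × I, ℝ)) : Prop where
  rel : PP.Rel (φ.BA r) (φ.bx r) c
  relθ : PP.Rel φ.A0 φ.e0 θ
  pos : ∀ q, 0 < ρ q
  col : ∀ q, ∀ s ∈ Set.Icc (0 : ℝ) 1, ∀ i, i ≠ j → i ≠ k →
    (c q).1.1 j + (s * (sg j k * ρ q)) • am φ (θ q) ≠ (c q).1.1 i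
  top : ∀ y, ρ (y, 1) = 1
  side : ∀ y ∈ Cube.boundary M, ∀ t, ρ (y, t) = 1

variable {φ} {j k : Fin r} {c : C((M → I) × I, BX V r)} {θ : C((M → I) × I, V0 V)}
  {ρ : C((M → I) × I, ℝ)}

variable (φ) in
/-- The positions of the strands with the parallel copy. -/
noncomputable def parPos (j k : Fin r) (c : C((M → I) × I, BX V r)) (θ : C((M → I) × I, V0 V))
    (ρ : C((M → I) × I, ℝ)) (q : (M → I) × I) (i : Fin r) : V :=
  if i = k then (c q).1.1 j + (sg j k * ρ q) • am φ (θ q) else (c q).1.1 i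

theorem ParD.inj (h : ParD φ j k c θ ρ) (q : (M → I) × I) :
    Function.Injective (parPos φ j k c θ ρ q) := by
  have h0 : ∀ i, i ≠ k → (c q).1.1 j + (sg j k * ρ q) • am φ (θ q) ≠ (c q).1.1 i := by
    intro i hi
    by_cases hij : i = j
    · subst hij
      intro h1
      have h2 : (sg i k * ρ q) • am φ (θ q) = 0 := by
        have h3 := h1
        rwa [add_eq_left] at h3
      exact smul_ne_zero (mul_ne_zero (sg_ne i k) (h.pos q).ne') (am_ne φ _) h2
    · have h1 := h.col q 1 ⟨zero_le_one, le_rfl⟩ i hij hi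
      rwa [one_mul] at h1
  intro i l hil
  unfold parPos at hil
  split_ifs at hil with h1 h2 h2
  · exact h1.trans h2.symm
  · exact absurd hil (h0 l h2)
  · exact absurd hil.symm (h0 i h1)
  · exact (c q).1.2 hil

theorem continuous_parPos (i : Fin r) : Continuous fun q => parPos φ j k c θ ρ q i := by
  have hk : ∀ k : Fin r, Continuous fun c : BX V r => c.1.1 k := fun k =>
    (continuous_apply k).comp (continuous_subtype_val.comp continuous_fst)
  unfold parPos
  split_ifs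
  · exact ((hk j).comp c.continuous).add
      ((continuous_const.mul ρ.continuous).smul ((am φ).continuous.comp θ.continuous))
  · exact (hk i).comp c.continuous

/-- The braid with the parallel copy. -/
noncomputable def parC (h : ParD φ j k c θ ρ) : C((M → I) × I, BX V r) where
  toFun q := (⟨parPos φ j k c θ ρ q, h.inj q⟩, fun i => (c q).2 (if i = k then j else i))
  continuous_toFun := by
    refine Continuous.prodMk (Continuous.subtype_mk (continuous_pi continuous_parPos) _) ?_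
    exact continuous_pi fun i => (continuous_apply _).comp (continuous_snd.comp c.continuous)

theorem parC_pos (h : ParD φ j k c θ ρ) (q : (M → I) × I) (i : Fin r) :
    (parC h q).1.1 i = parPos φ j k c θ ρ q i := rfl

theorem parC_nrm (h : ParD φ j k c θ ρ) (q : (M → I) × I) (i : Fin r) :
    (parC h q).2 i = (c q).2 (if i = k then j else i) := rfl

theorem parPos_of_ne {q : (M → I) × I} {i : Fin r} (hi : i ≠ k) :
    parPos φ j k c θ ρ q i = (c q).1.1 i := if_neg hi

theorem parPos_self {q : (M → I) × I} :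
    parPos φ j k c θ ρ q k = (c q).1.1 j + (sg j k * ρ q) • am φ (θ q) := if_pos rfl

/-- Adjacent strands. -/
def Nb (j k : Fin r) : Prop := (j : ℕ) + 1 = k ∨ (k : ℕ) + 1 = j

theorem Nb.ne (h : Nb j k) : j ≠ k := by
  rintro rfl
  rcases h with h | h <;> omega

theorem Nb.base (h : Nb j k) : φ.base r j + sg j k • φ.e = φ.base r k := by
  show (((j : ℕ) : ℝ) + 1) • φ.e + sg j k • φ.e = (((k : ℕ) : ℝ) + 1) • φ.e
  rw [← add_smul]
  congr 1
  rcases h with h | h
  · have h1 : sg j k = 1 := if_pos (Fin.lt_def.2 (by omega))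
    have h2 : ((k : ℕ) : ℝ) = ((j : ℕ) : ℝ) + 1 := by exact_mod_cast h.symm
    rw [h1, h2]
  · have h1 : sg j k = -1 := if_neg (fun h3 => by have := Fin.lt_def.1 h3; omega)
    have h2 : ((j : ℕ) : ℝ) = ((k : ℕ) : ℝ) + 1 := by exact_mod_cast h.symm
    rw [h1, h2]
    ring

theorem parC_face (h : ParD φ j k c θ ρ) (hjk : Nb j k) {q : (M → I) × I} (hc : c q = φ.bx r)
    (hθ : θ q = φ.e0) (hρ : ρ q = 1) : parC h q = φ.bx r := by
  refine Prod.ext (Subtype.ext (funext fun i => ?_)) (funext fun i => ?_)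
  · show parPos φ j k c θ ρ q i = φ.base r i
    by_cases hi : i = k
    · subst hi
      rw [parPos_self, hc, hθ, hρ, mul_one, am_e0, ← hjk.base]
      rfl
    · rw [parPos_of_ne hi, hc]
      rfl
  · rw [parC_nrm, hc]
    rfl

theorem parC_rel (h : ParD φ j k c θ ρ) (hjk : Nb j k) :
    PP.Rel (φ.BA r) (φ.bx r) (parC h) where
  rim y := by
    refine ⟨fun i => ?_, fun i => ?_⟩
    · have h1 : ∀ l, (c (y, 0)).1.1 l ∈ hSub φ := (h.rel.rim y).1
      show parPos φ j k c θ ρ (y, 0) i ∈ hSub φ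
      unfold parPos
      split_ifs
      · exact (hSub φ).add_mem (h1 j) ((hSub φ).smul_mem _ (am_mem φ (h.relθ.rim y)))
      · exact h1 i
    · exact (h.rel.rim y).2 _
  top y := parC_face h hjk (h.rel.top y) (h.relθ.top y) (h.top y)
  side y hy t := parC_face h hjk (h.rel.side y hy t) (h.relθ.side y hy t) (h.side y hy t)

/-- The parallel copy as a braid. -/
noncomputable def parL (h : ParD φ j k c θ ρ) (hjk : Nb j k) : φ.BrL M r :=
  PP.toGL (φ.bx_mem r) (parC h) (parC_rel h hjk)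

theorem sg_nb (hjk : Nb j k) {i : Fin r} (hi : i ≠ j) (hik : i ≠ k) : sg i k = sg i j := by
  have h1 : (i : ℕ) ≠ j := fun h => hi (Fin.ext h)
  have h2 : (i : ℕ) ≠ k := fun h => hik (Fin.ext h)
  unfold sg
  have h3 : i < k ↔ i < j := by
    rw [Fin.lt_def, Fin.lt_def]
    rcases hjk with h | h <;> omega
  rw [if_congr h3 rfl rfl]

variable [DecidableEq M] [Nonempty M]

/-- Pairs without `k`. -/
theorem clsU_par_other (h : ParD φ j k c θ ρ) (hjk : Nb j k) {i l : Fin r} (hi : i ≠ k)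
    (hl : l ≠ k) : φ.clsU M i l (hcl (parL h hjk)) =
      φ.clsU M i l (hcl (PP.toGL (φ.bx_mem r) c h.rel)) :=
  clsU_congr φ (fun _ _ => parPos_of_ne hi) fun _ _ => parPos_of_ne hl

/-- The pairs `{i, k}`, `i ≠ j`. -/
theorem clsU_par_k (h : ParD φ j k c θ ρ) (hjk : Nb j k) {i : Fin r} (hi : i ≠ k)
    (hij : i ≠ j) : φ.clsU M i k (hcl (parL h hjk)) =
      φ.clsU M i j (hcl (PP.toGL (φ.bx_mem r) c h.rel)) := by
  unfold parL
  rw [clsU_toGL φ hi (parC_rel h hjk), clsU_toGL φ hij h.rel]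
  refine hcl_eq_iff.2 (glf_homotopic φ.he (e_mem φ) _ _ fun s hs q h0 => ?_)
  rw [du_apply, du_apply, parC_pos, parC_pos, parPos_self, parPos_of_ne hi, sg_nb hjk hij hi]
    at h0
  have h1 : sg i j • ((c q).1.1 j + ((1 - s) * (sg j k * ρ q)) • am φ (θ q) - (c q).1.1 i) =
      0 := by
    refine Eq.trans ?_ h0
    module
  refine h.col q (1 - s) ⟨by linarith [hs.2], by linarith [hs.1]⟩ i hij hi ?_
  exact sub_eq_zero.1 ((smul_eq_zero.1 h1).resolve_left (sg_ne i j))

theorem sg_mul_self (i l : Fin r) : sg i l * sg i l = 1 := by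
  unfold sg
  split_ifs <;> norm_num

/-- The pair `{j, k}`. -/
theorem clsU_par_jk (h : ParD φ j k c θ ρ) (hjk : Nb j k) :
    φ.clsU M j k (hcl (parL h hjk)) =
      φ.deltaH M (hcl (PP.toGL φ.e0_mem θ h.relθ)) := by
  unfold parL
  rw [clsU_toGL φ hjk.ne (parC_rel h hjk)]
  unfold Fr.deltaH
  rw [rmap_hcl]
  refine (hcl_eq_glf φ _ fun y t => ?_).symm
  have h1 := inner_self_pos (θ (y, t))
  have h2 := h.pos (y, t)
  refine ⟨⟪(θ (y, t) : V), (θ (y, t) : V)⟫ / ρ (y, t), div_pos h1 h2, ?_⟩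
  have h3 : (⟪(θ (y, t) : V), (θ (y, t) : V)⟫ / ρ (y, t)) •
      (sg j k • ((sg j k * ρ (y, t)) • am φ (θ (y, t)))) =
      ⟪(θ (y, t) : V), (θ (y, t) : V)⟫ • am φ (θ (y, t)) := by
    rw [smul_smul, smul_smul]
    congr 1
    have h4 : ⟪(θ (y, t) : V), (θ (y, t) : V)⟫ / ρ (y, t) * sg j k * (sg j k * ρ (y, t)) =
        (sg j k * sg j k) * (⟪(θ (y, t) : V), (θ (y, t) : V)⟫ / ρ (y, t) * ρ (y, t)) := by ring
    rw [h4, sg_mul_self, one_mul, div_mul_cancel₀ _ h2.ne']
  rw [du_apply, parC_pos, parC_pos, parPos_self, parPos_of_ne hjk.ne, add_sub_cancel_left, h3]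
  exact deltaMap_eq φ (θ (y, t))

/-- The twists. -/
theorem twH_par (h : ParD φ j k c θ ρ) (hjk : Nb j k) (i : Fin r) :
    φ.twH M i (hcl (parL h hjk)) =
      φ.twH M (if i = k then j else i) (hcl (PP.toGL (φ.bx_mem r) c h.rel)) :=
  twH_congr φ fun _ _ => rfl

/-! ### The classes of a slide -/

/-- **The classes of a slide.** `b` moves only the strand `k`, `b'` fixes `k` and does not link it,
the normal of `j` in `b'` has the class `ψ θ`; `d` moves only `k`, along the classes of `b`, with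
the additional twist `ψ (cls {j, k})`; then comes the parallel copy of `j`. -/
theorem slideOut [Nontrivial M] (i₀ : M) (h : ParD φ j k c θ ρ) (hjk : Nb j k) {b d : φ.BrL M r}
    (hb : φ.OnlyMoves k b) (hd : φ.OnlyMoves k d)
    (hc : ∀ i, i ≠ k → φ.clsU M i k (hcl (PP.toGL (φ.bx_mem r) c h.rel)) = 1)
    (hck : φ.twH M k (hcl (PP.toGL (φ.bx_mem r) c h.rel)) = 1)
    (hdb : ∀ i, i ≠ k → φ.clsU M i k (hcl d) = φ.clsU M i k (hcl b))
    (hdt : φ.twH M k (hcl d) = φ.twH M k (hcl b) * φ.psiH M (φ.clsU M j k (hcl b))) :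
    φ.SlideOut (hcl (PP.toGL φ.e0_mem θ h.relθ)) j k
      (hcl (GenLoop.transAt i₀ b (PP.toGL (φ.bx_mem r) c h.rel)))
      (hcl (GenLoop.transAt i₀ d (parL h hjk))) := by
  have comm : ∀ a b : φ.PiG M, a * b = b * a := rg_comm
  have comm' : ∀ a b : φ.PhiG M, a * b = b * a := rg_comm
  rw [← hcl_mul i₀, ← hcl_mul i₀]
  refine ⟨fun i l hi hl => ?_, fun i hi hij => ?_, ?_, fun i hi => ?_, ?_⟩
  · rw [map_mul, map_mul, clsU_eq_one φ hb hi hl, clsU_eq_one φ hd hi hl,
      clsU_par_other h hjk hi hl]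
  · rw [map_mul, map_mul, map_mul, clsU_eq_one φ hb hi hjk.ne, clsU_par_k h hjk hi hij, hdb i hi,
      hc i hi, one_mul, mul_one, comm]
  · rw [map_mul, map_mul, clsU_par_jk h hjk, hdb j hjk.ne, hc j hjk.ne, one_mul, comm]
  · rw [map_mul, map_mul, twH_eq_one φ hb hi, twH_eq_one φ hd hi, twH_par h hjk, if_neg hi]
  · rw [map_mul, map_mul, map_mul, map_mul, twH_par h hjk, if_pos rfl, hdt, hck,
      twH_eq_one φ hb hjk.ne, hc j hjk.ne, one_mul, one_mul, mul_one, comm', mul_assoc,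
      mul_assoc]
    congr 1
    exact comm' _ _

end Par

end Vale.Agent.P268.T.H839
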