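import Vale.Agent.P268.T.H839.Start
import Vale.Agent.P268.T.H839.SlideCls
import Vale.Agent.P268.T.H277.Data

/-!
# P268, topological half, block B6c: the start data satisfy `SD` and `SG`
-/

namespace Vale.Agent.P268.T.H839

open scoped unitInterval Topology Topology.Homotopy RealInnerProductSpace
open Set Metric Vale.Agent.P268.H288 Vale.Agent.P268.T.A109 Vale.Agent.P268.T.H277

variable {d r : ℕ} {b b' : (frk d).BrL (Fin (d + 2)) r} {j k : Fin r} {ρ : ℝ}

/-- The base positions of the sheets. -/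
noncomputable def stV (d r : ℕ) (ρ : ℝ) : Option (Fin r) → Vk d
  | none => -(ρ • (frk d).e)
  | some i => (frk d).base r i

/-- The values of a braid on the faces. -/
theorem ofGL_face {x : Pk d} (hx : Face x) (c : (frk d).BrL (Fin (d + 2)) r) (a e : ℝ)
    (h1 : x 0 = 1 → 1 ≤ a * x 0 + e) (h2 : x 0 = -1 → a * x 0 + e ≤ 0) :
    PP.ofGL c (cubeAt (a * x 0 + e) x) = (frk d).bx r := by
  rcases hx with ⟨l, hl, hl1⟩ | hx
  · refine (PP.rel_ofGL c).side _ ?_ _
    obtain ⟨l', rfl⟩ : ∃ l' : Fin (d + 2), l'.castSucc = l :=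
      ⟨l.castPred hl, Fin.castSucc_castPred l hl⟩
    rcases eq_or_ne l' 0 with h0 | h0
    · subst h0
      have h00 : ((0 : Fin (d + 2)).castSucc : Fin (d + 2 + 1)) = 0 := rfl
      rw [h00] at hl1
      refine cubeAt_boundary ?_ x
      rcases (abs_eq zero_le_one).1 hl1 with h3 | h3
      · exact Or.inr (h1 h3)
      · exact Or.inl (h2 h3)
    · refine ⟨l', ?_⟩
      show Function.update (cubeM x).1 0 (clI (a * x 0 + e)) l' = 0 ∨
        Function.update (cubeM x).1 0 (clI (a * x 0 + e)) l' = 1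
      rw [Function.update_of_ne h0]
      show clI ((x l'.castSucc + 1) / 2) = 0 ∨ clI ((x l'.castSucc + 1) / 2) = 1
      rcases (abs_eq zero_le_one).1 hl1 with h3 | h3
      · exact Or.inr (clI_of_ge (by rw [h3]; norm_num))
      · exact Or.inl (clI_of_le (by rw [h3]; norm_num))
  · have h3 : cubeAt (a * x 0 + e) x = ((cubeAt (a * x 0 + e) x).1, (1 : I)) := by
      refine Prod.ext rfl ?_
      show clI ((x (Fin.last _) + 1) / 2) = 1
      exact clI_of_ge (by rw [hx]; norm_num)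
    rw [h3]
    exact (PP.rel_ofGL c).top _

/-- The values of the start data on the faces. -/
theorem stB_face (b b' : (frk d).BrL (Fin (d + 2)) r) (ρ : ℝ) (k : Fin r)
    (i : Option (Fin r)) {x : Pk d} (hx : Face x) :
    stB (frk d) b b' ρ k i x = stV d r ρ i ∧ stN (frk d) b b' k i x = (frk d).h := by
  cases i with
  | none => exact ⟨rfl, rfl⟩
  | some i =>
    have h1 := ofGL_face hx b 4 3 (fun h => by rw [h]; norm_num) (fun h => by rw [h]; norm_num)
    have h2 : PP.ofGL b' (cubeAt (4 * x 0 - 1) x) = (frk d).bx r := by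
      have := ofGL_face hx b' 4 (-1) (fun h => by rw [h]; norm_num)
        (fun h => by rw [h]; norm_num)
      rwa [← sub_eq_add_neg] at this
    constructor
    · show (if i = k then (PP.ofGL b (cubeAt (4 * x 0 + 3) x)).1.1 i
        else (PP.ofGL b' (cubeAt (4 * x 0 - 1) x)).1.1 i) = (frk d).base r i
      rw [h1, h2, ite_self]
      rfl
    · show (if i = k then ((PP.ofGL b (cubeAt (4 * x 0 + 3) x)).2 i : Vk d)
        else ((PP.ofGL b' (cubeAt (4 * x 0 - 1) x)).2 i : Vk d)) = (frk d).h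
      rw [h1, h2, ite_self]
      rfl

/-- **The start data satisfy `SD`.** -/
theorem start_sd (hb : (frk d).OnlyMoves k b) (hb' : (frk d).Fixed k b')
    (hρ : ∀ (i : Fin r) (q : (Fin (d + 2) → I) × I),
      ‖(PP.ofGL (GenLoop.transAt 0 b b') q).1.1 i‖ < ρ) (hjk : j ≠ k) :
    SD (stB (frk d) b b' ρ k) (stN (frk d) b b' k) (stV d r ρ) none (some j) (some k) where
  dat := start_bData hb hb' hρ
  zj := (Option.some_ne_none j).symm
  zk := (Option.some_ne_none k).symm
  jk := fun h => hjk (Option.some_injective _ h)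
  cz _ := rfl
  nz _ := rfl
  left i hi x _ hx := by
    cases i with
    | none => exact ⟨rfl, rfl⟩
    | some i => exact stB_left (frk d) b b' ρ (fun h => hi (congrArg some h)) hx
  right x _ hx := stB_k_right (frk d) b b' ρ k hx
  face i x _ hx := stB_face b b' ρ k i hx
  win i :=
    ⟨(stB_constOn b b' ρ k i (Or.inr (Or.inr le_rfl))).1,
      (stB_constOn b b' ρ k i (Or.inr (Or.inr le_rfl))).2,
      (stB_constOn b b' ρ k i (Or.inl le_rfl)).1, (stB_constOn b b' ρ k i (Or.inl le_rfl)).2⟩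

/-! ### Geometry -/

/-- The direction of the lift. -/
noncomputable def se2 (d : ℕ) : Vk d := EuclideanSpace.single 1 1

theorem se2_norm : ‖se2 d‖ = 1 := by
  unfold se2
  simp

theorem se2_h : ⟪se2 d, (frk d).h⟫ = 0 := by
  show ⟪se2 d, EuclideanSpace.single (Fin.last _) 1⟫ = 0
  unfold se2
  rw [EuclideanSpace.inner_single_left]
  have h : (1 : Fin (d + 4)) ≠ Fin.last _ := by
    intro h
    have := congrArg Fin.val h
    rw [Fin.val_last, Fin.val_one] at this
    omega
  simp [h]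

theorem se2_e : ⟪se2 d, (frk d).e⟫ = 0 := by
  show ⟪se2 d, EuclideanSpace.single 0 1⟫ = 0
  unfold se2
  rw [EuclideanSpace.inner_single_left]
  simp

theorem base_sub (i l : Fin r) : (frk d).base r l - (frk d).base r i =
    (((l : ℕ) : ℝ) - ((i : ℕ) : ℝ)) • (frk d).e := by
  show (((l : ℕ) : ℝ) + 1) • (frk d).e - (((i : ℕ) : ℝ) + 1) • (frk d).e = _
  rw [← sub_smul]
  congr 1
  ring

theorem nb_abs (hjk : Nb j k) : |((k : ℕ) : ℝ) - ((j : ℕ) : ℝ)| = 1 := by
  rcases hjk with h | h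
  · have h1 : ((k : ℕ) : ℝ) = ((j : ℕ) : ℝ) + 1 := by exact_mod_cast h.symm
    rw [h1]
    norm_num
  · have h1 : ((j : ℕ) : ℝ) = ((k : ℕ) : ℝ) + 1 := by exact_mod_cast h.symm
    rw [h1]
    norm_num

/-- The segment from `k` to `j` does not meet other strands. -/
theorem base_seg (hjk : Nb j k) {i : Fin r} (hij : i ≠ j) (hik : i ≠ k) {s : ℝ}
    (hs : s ∈ Icc (0 : ℝ) 1) :
    (frk d).base r k - s • ((frk d).base r k - (frk d).base r j) ≠ (frk d).base r i := by
  intro h
  rw [base_sub, sub_eq_iff_eq_add, ← sub_eq_iff_eq_add', base_sub, smul_smul] at h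
  have h1 := smul_inj (frk d).he h
  have hj' : (i : ℕ) ≠ j := fun h => hij (Fin.ext h)
  have hk' : (i : ℕ) ≠ k := fun h => hik (Fin.ext h)
  obtain ⟨hs0, hs1⟩ := hs
  rcases hjk with h2 | h2
  · have h3 : ((k : ℕ) : ℝ) = ((j : ℕ) : ℝ) + 1 := by exact_mod_cast h2.symm
    have h4 : ((i : ℕ) : ℝ) = ((k : ℕ) : ℝ) - s := by rw [h3] at h1 ⊢; linarith
    have h5 : ((j : ℕ) : ℝ) ≤ ((i : ℕ) : ℝ) := by rw [h4, h3]; linarith
    have h6 : ((i : ℕ) : ℝ) ≤ ((k : ℕ) : ℝ) := by rw [h4]; linarith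
    have h7 : (j : ℕ) ≤ i := by exact_mod_cast h5
    have h8 : (i : ℕ) ≤ k := by exact_mod_cast h6
    omega
  · have h3 : ((j : ℕ) : ℝ) = ((k : ℕ) : ℝ) + 1 := by exact_mod_cast h2.symm
    have h4 : ((i : ℕ) : ℝ) = ((k : ℕ) : ℝ) + s := by rw [h3] at h1; linarith
    have h5 : ((k : ℕ) : ℝ) ≤ ((i : ℕ) : ℝ) := by rw [h4]; linarith
    have h6 : ((i : ℕ) : ℝ) ≤ ((j : ℕ) : ℝ) := by rw [h4, h3]; linarith
    have h7 : (k : ℕ) ≤ i := by exact_mod_cast h5
    have h8 : (i : ℕ) ≤ j := by exact_mod_cast h6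
    omega

/-- A positive lower bound on the unit ball for finitely many positive continuous functions. -/
theorem exists_lower {ι : Type*} [Fintype ι] (f : ι → Pk d → ℝ)
    (hf : ∀ i, ContinuousOn (f i) (closedBall 0 1)) (h0 : ∀ i, ∀ x, ‖x‖ ≤ 1 → 0 < f i x) :
    ∃ c, 0 < c ∧ ∀ i x, ‖x‖ ≤ 1 → c ≤ f i x := by
  have hK : IsCompact (closedBall (0 : Pk d) 1) := isCompact_closedBall 0 1
  have h1 : ∀ i, ∃ c, 0 < c ∧ ∀ x, ‖x‖ ≤ 1 → c ≤ f i x := by
    intro i
    obtain ⟨x, hx, hmin⟩ := hK.exists_isMinOn ⟨0, mem_closedBall_self zero_le_one⟩ (hf i)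
    exact ⟨f i x, h0 i x (mem_closedBall_zero_iff.1 hx), fun y hy =>
      hmin (mem_closedBall_zero_iff.2 hy)⟩
  choose c hc hc' using h1
  classical
  by_cases hι : Nonempty ι
  · obtain ⟨i₀, -, hi₀⟩ := Finset.exists_min_image Finset.univ c Finset.univ_nonempty
    exact ⟨c i₀, hc i₀, fun i x hx => (hi₀ i (Finset.mem_univ i)).trans (hc' i x hx)⟩
  · exact ⟨1, one_pos, fun i => (hι ⟨i⟩).elim⟩

/-- An upper bound on the unit ball for finitely many continuous functions. -/
theorem exists_upper {ι : Type*} [Fintype ι] (f : ι → Pk d → ℝ)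
    (hf : ∀ i, ContinuousOn (f i) (closedBall 0 1)) :
    ∃ c, ∀ i x, ‖x‖ ≤ 1 → f i x ≤ c := by
  have hK : IsCompact (closedBall (0 : Pk d) 1) := isCompact_closedBall 0 1
  have h1 : ∀ i, ∃ c, ∀ x, ‖x‖ ≤ 1 → f i x ≤ c := by
    intro i
    obtain ⟨x, hx, hmax⟩ := hK.exists_isMaxOn ⟨0, mem_closedBall_self zero_le_one⟩ (hf i)
    exact ⟨f i x, fun y hy => hmax (mem_closedBall_zero_iff.2 hy)⟩
  choose c hc using h1
  refine ⟨∑ i, |c i|, fun i x hx => ?_⟩
  exact ((hc i x hx).trans (le_abs_self _)).trans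
    (Finset.single_le_sum (f := fun i => |c i|) (fun _ _ => abs_nonneg _) (Finset.mem_univ i))

/-- **The start data satisfy `SG`** for large `L` and small radii. -/
theorem start_sg (hb : (frk d).OnlyMoves k b) (hb' : (frk d).Fixed k b')
    (hρ : ∀ (i : Fin r) (q : (Fin (d + 2) → I) × I),
      ‖(PP.ofGL (GenLoop.transAt 0 b b') q).1.1 i‖ < ρ) (hjk : Nb j k) :
    ∃ L₀ r₀ : ℝ, 0 < r₀ ∧ ∀ L, L₀ ≤ L → ∀ s, 0 < s → s ≤ r₀ →
      SG (stB (frk d) b b' ρ k) (stV d r ρ) none (some j) (some k) (se2 d) L s := by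
  have hdat := start_bData hb hb' hρ
  have hcont : ∀ i, ContinuousOn (stB (frk d) b b' ρ k i) (closedBall 0 1) := fun i =>
    (hdat.cb i).comp (f := fun x : Pk d => ((), x)) (by fun_prop) (fun _ hx => ⟨mem_univ _, hx⟩)
  -- gaps
  obtain ⟨c, hc, hgap⟩ := exists_lower (ι := {p : Fin r × Fin r // p.1 ≠ p.2})
    (fun p x => ‖stB (frk d) b b' ρ k (some p.1.1) x - stB (frk d) b b' ρ k (some p.1.2) x‖)
    (fun p => ((hcont _).sub (hcont _)).norm) (fun p x hx => by
      refine norm_pos_iff.2 (sub_ne_zero.2 fun h => p.2 ?_)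
      exact Option.some_injective _ (hdat.inj () (mem_univ _) x (mem_closedBall_zero_iff.2 hx) h))
  obtain ⟨C, hC⟩ := exists_upper (ι := Fin r)
    (fun i x => ‖stB (frk d) b b' ρ k (some i) x - stV d r ρ (some k)‖)
    (fun i => ((hcont _).sub continuousOn_const).norm)
  refine ⟨C + 8, min (c / 6) (1 / 8), lt_min (by positivity) (by norm_num),
    fun L hL s hs hs' => ?_⟩
  have hs1 : s ≤ c / 6 := hs'.trans (min_le_left _ _)
  have hs2 : s ≤ 1 / 8 := hs'.trans (min_le_right _ _)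
  have hinner : ∀ i : Fin r, ∀ u : Vk d, ⟪u, (frk d).base r i⟫ =
      (((i : ℕ) : ℝ) + 1) * ⟪u, (frk d).e⟫ := by
    intro i u
    show ⟪u, (((i : ℕ) : ℝ) + 1) • (frk d).e⟫ = _
    rw [inner_smul_right]
  refine ⟨?_, fun i hi => ?_, se2_norm, se2_h, fun i hi => ?_, fun i hi hij hik t ht => ?_,
    fun i hi x hx => ?_, hs, by linarith, fun i i' hi hi' hii x hx => ?_⟩
  · show ‖(frk d).base r k - (frk d).base r j‖ = 1
    rw [base_sub, norm_smul, (frk d).he, mul_one, Real.norm_eq_abs, nb_abs hjk]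
  · cases i with
    | none => exact absurd rfl hi
    | some i =>
      show ⟪(frk d).base r i, (frk d).h⟫ = 0
      rw [real_inner_comm, hinner, (frk d).heh, mul_zero]
  · cases i with
    | none => exact absurd rfl hi
    | some i =>
      show ⟪se2 d, (frk d).base r i⟫ = 0
      rw [hinner, se2_e, mul_zero]
  · cases i with
    | none => exact absurd rfl hi
    | some i =>
      exact base_seg hjk (fun h => hij (congrArg some h)) (fun h => hik (congrArg some h)) ht
  · cases i with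
    | none => exact absurd rfl hi
    | some i =>
      have := hC i x hx
      linarith
  · cases i with
    | none => exact absurd rfl hi
    | some i =>
      cases i' with
      | none => exact absurd rfl hi'
      | some i' =>
        have h1 := hgap ⟨(i, i'), fun h => hii (congrArg some h)⟩ x hx
        have h2 : c ≤ ‖stB (frk d) b b' ρ k (some i) x - stB (frk d) b b' ρ k (some i') x‖ := h1
        linarith

end Vale.Agent.P268.T.H839
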