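import Vale.Agent.P268.T.H839.Sd

/-!
# P268, topological half, block B6c: the direction of the parallel copy

`stA θ j k x = σ • am θ(4 x₀ - 1, …)`, `σ = ± 1` the sign of `k - j`.
-/

namespace Vale.Agent.P268.T.H839

open scoped unitInterval Topology Topology.Homotopy RealInnerProductSpace
open Set Metric Vale.Agent.P268.H288 Vale.Agent.P268.T.A109 Vale.Agent.P268.T.H277

variable {d r : ℕ} {j k : Fin r}

/-- The direction of the parallel copy of `j`. -/
noncomputable def stA (θ : (frk d).PiL (Fin (d + 2))) (j k : Fin r) (x : Pk d) : Vk d :=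
  sg j k • am (frk d) (PP.ofGL θ (cubeAt (4 * x 0 - 1) x))

theorem continuous_stA (θ : (frk d).PiL (Fin (d + 2))) (j k : Fin r) :
    Continuous (stA θ j k) := by
  have h := continuous_cubeAt (m := d + 2) (f := fun x : Fin (d + 2 + 1) → ℝ => 4 * x 0 - 1)
    (by fun_prop)
  have h2 : Continuous fun x : Pk d => am (frk d) (PP.ofGL θ (cubeAt (4 * x 0 - 1) x)) :=
    (am (frk d)).continuous.comp ((PP.ofGL θ).continuous.comp h)
  exact h2.const_smul (sg j k)

theorem norm_stA (θ : (frk d).PiL (Fin (d + 2))) (j k : Fin r) (x : Pk d) :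
    ‖stA θ j k x‖ = 1 := by
  unfold stA
  rw [norm_smul, norm_am, mul_one, Real.norm_eq_abs, abs_sg]

/-- The direction is orthogonal to the normal of `j`. -/
theorem inner_stA {b c : (frk d).BrL (Fin (d + 2)) r} {θ : (frk d).PiL (Fin (d + 2))}
    (hjk : j ≠ k) (hc : ∀ y t, ((c y).1 t).2 j = (frk d).psiMap ((θ y).1 t)) (x : Pk d) :
    ⟪stA θ j k x, stN (frk d) b c k (some j) x⟫ = 0 := by
  have h1 : stN (frk d) b c k (some j) x =
      ((frk d).psiMap (PP.ofGL θ (cubeAt (4 * x 0 - 1) x)) : Vk d) := by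
    show (if j = k then _ else ((PP.ofGL c (cubeAt (4 * x 0 - 1) x)).2 j : Vk d)) = _
    rw [if_neg hjk]
    exact congrArg Subtype.val (hc (cubeAt (4 * x 0 - 1) x).1 (cubeAt (4 * x 0 - 1) x).2)
  rw [h1]
  unfold stA
  rw [inner_smul_left, inner_am_psi, mul_zero]

theorem nb_sub (hjk : Nb j k) : (frk d).base r k - (frk d).base r j = sg j k • (frk d).e := by
  rw [sub_eq_iff_eq_add', hjk.base]

/-- The values of `θ` on the faces. -/
theorem ofGL_face' {x : Pk d} (hx : Face x) (θ : (frk d).PiL (Fin (d + 2))) (a e : ℝ)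
    (h1 : x 0 = 1 → 1 ≤ a * x 0 + e) (h2 : x 0 = -1 → a * x 0 + e ≤ 0) :
    PP.ofGL θ (cubeAt (a * x 0 + e) x) = (frk d).e0 := by
  rcases hx with ⟨l, hl, hl1⟩ | hx
  · refine (PP.rel_ofGL θ).side _ ?_ _
    obtain ⟨l', rfl⟩ : ∃ l' : Fin (d + 2), l'.castSucc = l :=
      ⟨l.castPred hl, Fin.castSucc_castPred l hl⟩
    rcases eq_or_ne l' 0 with h0 | h0
    · subst h0
      have h00 : ((0 : Fin (d + 2)).castSucc : Fin (d + 2 + 1)) = 0 := rfl
      rw [h00] at hl1
      refine cubeAt_boundary ?_ x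
      rcases (abs_eq zero_le_one).1 hl1 with h3 | h3
      · exact Or.inr (h1 h3)
      · exact Or.inl (h2 h3)
    · refine ⟨l', ?_⟩
      show Function.update (cubeM x).1 0 (clI (a * x 0 + e)) l' = 0 ∨
        Function.update (cubeM x).1 0 (clI (a * x 0 + e)) l' = 1
      rw [Function.update_of_ne h0]
      show clI ((x l'.castSucc + 1) / 2) = 0 ∨ clI ((x l'.castSucc + 1) / 2) = 1
      rcases (abs_eq zero_le_one).1 hl1 with h3 | h3
      · exact Or.inr (clI_of_ge (by rw [h3]; norm_num))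
      · exact Or.inl (clI_of_le (by rw [h3]; norm_num))
  · have h3 : cubeAt (a * x 0 + e) x = ((cubeAt (a * x 0 + e) x).1, (1 : I)) := by
      refine Prod.ext rfl ?_
      show clI ((x (Fin.last _) + 1) / 2) = 1
      exact clI_of_ge (by rw [hx]; norm_num)
    rw [h3]
    exact (PP.rel_ofGL θ).top _

theorem stA_of_e0 (hjk : Nb j k) {θ : (frk d).PiL (Fin (d + 2))} {x : Pk d}
    (h : PP.ofGL θ (cubeAt (4 * x 0 - 1) x) = (frk d).e0) :
    stA θ j k x = (frk d).base r k - (frk d).base r j := by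
  unfold stA
  rw [h, am_e0, nb_sub hjk]

/-- To the left of `x 0 = 1/4`. -/
theorem stA_left (hjk : Nb j k) (θ : (frk d).PiL (Fin (d + 2))) {x : Pk d} (hx : x 0 ≤ 1 / 4) :
    stA θ j k x = (frk d).base r k - (frk d).base r j :=
  stA_of_e0 hjk ((PP.rel_ofGL θ).side _ (cubeAt_boundary (Or.inl (by linarith)) x) _)

/-- To the right of `x 0 = 1/2`. -/
theorem stA_right (hjk : Nb j k) (θ : (frk d).PiL (Fin (d + 2))) {x : Pk d} (hx : 1 / 2 ≤ x 0) :
    stA θ j k x = (frk d).base r k - (frk d).base r j :=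
  stA_of_e0 hjk ((PP.rel_ofGL θ).side _ (cubeAt_boundary (Or.inr (by linarith)) x) _)

/-- On the faces. -/
theorem stA_face (hjk : Nb j k) (θ : (frk d).PiL (Fin (d + 2))) {x : Pk d} (hx : Face x) :
    stA θ j k x = (frk d).base r k - (frk d).base r j := by
  refine stA_of_e0 hjk ?_
  have := ofGL_face' hx θ 4 (-1) (fun h => by rw [h]; norm_num) (fun h => by rw [h]; norm_num)
  rwa [← sub_eq_add_neg] at this

theorem e_h : ⟪(frk d).e, (frk d).h⟫ = 0 := (real_inner_comm _ _).trans (frk d).heh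

/-- On the sphere the direction is in the page. -/
theorem stA_sphere (hjk : Nb j k) (θ : (frk d).PiL (Fin (d + 2))) {x : Pk d} (hx : ‖x‖ = 1) :
    ⟪stA θ j k x, (frk d).h⟫ = 0 := by
  rcases H277.face_or_rim hx with h | h
  · rw [stA_face hjk θ h, nb_sub hjk, inner_smul_left, e_h, mul_zero]
  · have h2 : (x (Fin.last _) + 1) / 2 = 0 := h
    have h3 : cubeAt (4 * x 0 - 1) x = ((cubeAt (4 * x 0 - 1) x).1, (0 : I)) := by
      refine Prod.ext rfl ?_
      show clI ((x (Fin.last _) + 1) / 2) = 0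
      rw [h2]
      exact clI_of_le le_rfl
    have h4 : PP.ofGL θ (cubeAt (4 * x 0 - 1) x) ∈ (frk d).A0 := by
      rw [h3]
      exact (PP.rel_ofGL θ).rim _
    have h5 : ⟪(frk d).h, am (frk d) (PP.ofGL θ (cubeAt (4 * x 0 - 1) x))⟫ = 0 :=
      am_mem (frk d) h4
    unfold stA
    rw [inner_smul_left, real_inner_comm, h5, mul_zero]

theorem stA_constOn (hjk : Nb j k) (θ : (frk d).PiL (Fin (d + 2))) :
    ConstOn (1 / 2) 1 (stA θ j k) := fun x _ hx _ y _ hy _ _ => by
  rw [stA_right hjk θ hx, stA_right hjk θ hy]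

end Vale.Agent.P268.T.H839
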