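import Vale.Agent.P268.H288.PP

/-!
# Spheroids with values in a punctured space, straight line homotopies (P268, block B7)

`NZ V` = nonzero vectors, `nzH H` = the nonzero vectors of the subspace `H`, `e` a unit vector of
`H`. A continuous `F : (M → I) × I → V` which is nonzero, in `H` on the rim face and a positive
multiple of `e` on the other faces (`Good H e F`) has a normalised generalized loop `glf F` in
`PP (NZ V) (nzH H) e`.
-/

namespace Vale.Agent.P268.T.H839

open scoped unitInterval Topology Topology.Homotopy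
open ContinuousMap Vale.Agent.P268.H288

variable {M : Type*} {V : Type*} [NormedAddCommGroup V] [NormedSpace ℝ V]

/-- Nonzero vectors. -/
abbrev NZ (V : Type*) [NormedAddCommGroup V] : Type _ := {p : V // p ≠ 0}

/-- Nonzero vectors of a subspace. -/
def nzH (H : Submodule ℝ V) : Set (NZ V) := {p | p.1 ∈ H}

/-- Positive multiples of `e`. -/
def Ray (e p : V) : Prop := ∃ a : ℝ, 0 < a ∧ p = a • e

theorem Ray.nrm {e p : V} (he : ‖e‖ = 1) (h : Ray e p) : ‖p‖⁻¹ • p = e := by
  obtain ⟨a, ha, rfl⟩ := h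
  rw [norm_smul, he, mul_one, Real.norm_of_nonneg ha.le, smul_smul, inv_mul_cancel₀ ha.ne',
    one_smul]

theorem Ray.add {e p q : V} (h : Ray e p) (h' : Ray e q) : Ray e (p + q) := by
  obtain ⟨a, ha, rfl⟩ := h
  obtain ⟨b, hb, rfl⟩ := h'
  exact ⟨a + b, add_pos ha hb, (add_smul _ _ _).symm⟩

theorem Ray.seg {e p q : V} (h : Ray e p) (h' : Ray e q) {s : ℝ} (h0 : 0 ≤ s) (h1 : s ≤ 1) :
    Ray e ((1 - s) • p + s • q) := by
  obtain ⟨a, ha, rfl⟩ := h
  obtain ⟨b, hb, rfl⟩ := h'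
  refine ⟨(1 - s) * a + s * b, ?_, by rw [add_smul, mul_smul, mul_smul]⟩
  rcases eq_or_lt_of_le h0 with h | h
  · subst h; simpa using ha
  · exact add_pos_of_nonneg_of_pos (mul_nonneg (by linarith) ha.le) (mul_pos h hb)

/-- The functions which give a spheroid of the pair `(V ∖ 0, H ∖ 0)`. -/
structure Good (H : Submodule ℝ V) (e : V) (F : C((M → I) × I, V)) : Prop where
  ne : ∀ y, F y ≠ 0
  rim : ∀ y, F (y, 0) ∈ H
  top : ∀ y, Ray e (F (y, 1))
  side : ∀ y ∈ Cube.boundary M, ∀ t, Ray e (F (y, t))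

variable {H : Submodule ℝ V} {e : V}

/-- The unit vector `e` as a point of the punctured space. -/
def pt {V : Type*} [NormedAddCommGroup V] (e : V) (he : ‖e‖ = 1) : NZ V := ⟨e, fun h => by rw [h, norm_zero] at he; exact zero_ne_one he⟩

@[simp]
theorem pt_val {V : Type*} [NormedAddCommGroup V] (e : V) (he : ‖e‖ = 1) : (pt e he).1 = e := rfl

theorem pt_mem (he : ‖e‖ = 1) (heH : e ∈ H) : pt e he ∈ nzH H := heH

/-- Normalisation of a nonzero vector. -/
noncomputable def nrm : C(NZ V, NZ V) where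
  toFun p := ⟨‖p.1‖⁻¹ • p.1, smul_ne_zero (inv_ne_zero (norm_ne_zero_iff.2 p.2)) p.2⟩
  continuous_toFun := by
    refine Continuous.subtype_mk ?_ _
    exact (continuous_subtype_val.norm.inv₀ fun p => norm_ne_zero_iff.2 p.2).smul
      continuous_subtype_val

@[simp]
theorem nrm_val (p : NZ V) : (nrm p).1 = ‖p.1‖⁻¹ • p.1 := rfl

theorem nrm_mem {p : NZ V} (h : p ∈ nzH H) : nrm p ∈ nzH H := H.smul_mem _ h

/-- The normalised map of a good function. -/
noncomputable def nf (F : C((M → I) × I, V)) (h : ∀ y, F y ≠ 0) : C((M → I) × I, NZ V) :=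
  nrm.comp ⟨fun y => ⟨F y, h y⟩, Continuous.subtype_mk F.continuous _⟩

@[simp]
theorem nf_val (F : C((M → I) × I, V)) (h : ∀ y, F y ≠ 0) (y : (M → I) × I) :
    (nf F h y).1 = ‖F y‖⁻¹ • F y := rfl

theorem Good.rel {F : C((M → I) × I, V)} (hF : Good H e F) (he : ‖e‖ = 1) :
    PP.Rel (nzH H) (pt e he) (nf F hF.ne) where
  rim y := H.smul_mem _ (hF.rim y)
  top y := Subtype.ext ((hF.top y).nrm he)
  side y hy t := Subtype.ext ((hF.side y hy t).nrm he)

/-- The generalized loop of a good function. -/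
noncomputable def glf (he : ‖e‖ = 1) (heH : e ∈ H) (F : C((M → I) × I, V)) (hF : Good H e F) :
    Ω^ M (PP (NZ V) (nzH H) (pt e he)) (PP.const (pt_mem he heH)) :=
  PP.toGL (pt_mem he heH) (nf F hF.ne) (hF.rel he)

theorem glf_val (he : ‖e‖ = 1) (heH : e ∈ H) (F : C((M → I) × I, V)) (hF : Good H e F)
    (y : M → I) (t : I) : ((glf he heH F hF y).1 t).1 = ‖F (y, t)‖⁻¹ • F (y, t) := rfl

/-- A family of good functions gives a homotopy. -/
theorem glf_homotopic_of (he : ‖e‖ = 1) (heH : e ∈ H) {F G : C((M → I) × I, V)}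
    (hF : Good H e F) (hG : Good H e G) (K : C(I × ((M → I) × I), V))
    (h0 : ∀ y, K (0, y) = F y) (h1 : ∀ y, K (1, y) = G y) (hne : ∀ z, K z ≠ 0)
    (hrim : ∀ s y, K (s, (y, 0)) ∈ H) (htop : ∀ s y, Ray e (K (s, (y, 1))))
    (hside : ∀ s, ∀ y ∈ Cube.boundary M, ∀ t, Ray e (K (s, (y, t)))) :
    GenLoop.Homotopic (glf he heH F hF) (glf he heH G hG) := by
  refine PP.homotopic_iff.2 ⟨nrm.comp ⟨fun z => ⟨K z, hne z⟩,
    Continuous.subtype_mk K.continuous _⟩, fun y => ?_, fun y => ?_, fun s => ⟨fun y => ?_,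
    fun y => ?_, fun y hy t => ?_⟩⟩
  · refine Subtype.ext ?_
    change ‖K (0, y)‖⁻¹ • K (0, y) = ‖F y‖⁻¹ • F y
    rw [h0]
  · refine Subtype.ext ?_
    change ‖K (1, y)‖⁻¹ • K (1, y) = ‖G y‖⁻¹ • G y
    rw [h1]
  · exact H.smul_mem _ (hrim s y)
  · exact Subtype.ext ((htop s y).nrm he)
  · exact Subtype.ext ((hside s y hy t).nrm he)

/-- The straight line homotopy. -/
theorem glf_homotopic (he : ‖e‖ = 1) (heH : e ∈ H) {F G : C((M → I) × I, V)}
    (hF : Good H e F) (hG : Good H e G)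
    (h : ∀ s ∈ Set.Icc (0 : ℝ) 1, ∀ y, (1 - s) • F y + s • G y ≠ 0) :
    GenLoop.Homotopic (glf he heH F hF) (glf he heH G hG) := by
  refine glf_homotopic_of he heH hF hG
    ⟨fun z => (1 - (z.1 : ℝ)) • F z.2 + (z.1 : ℝ) • G z.2, by fun_prop⟩ (fun y => ?_)
    (fun y => ?_) (fun z => h _ z.1.2 _) (fun s y => ?_) (fun s y => ?_) (fun s y hy t => ?_)
  · change (1 - ((0 : I) : ℝ)) • F y + ((0 : I) : ℝ) • G y = F y
    simp
  · change (1 - ((1 : I) : ℝ)) • F y + ((1 : I) : ℝ) • G y = G y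
    simp
  · exact H.add_mem (H.smul_mem _ (hF.rim y)) (H.smul_mem _ (hG.rim y))
  · exact (hF.top y).seg (hG.top y) s.2.1 s.2.2
  · exact (hF.side y hy t).seg (hG.side y hy t) s.2.1 s.2.2

/-- A constant function at a positive multiple of `e`. -/
theorem good_const (heH : e ∈ H) (he : ‖e‖ = 1) {a : ℝ} (ha : 0 < a) :
    Good (M := M) H e (ContinuousMap.const _ (a • e)) where
  ne _ := smul_ne_zero ha.ne' (pt e he).2
  rim _ := H.smul_mem _ heH
  top _ := ⟨a, ha, rfl⟩
  side _ _ _ := ⟨a, ha, rfl⟩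

theorem glf_const (he : ‖e‖ = 1) (heH : e ∈ H) {a : ℝ} (ha : 0 < a) :
    glf (M := M) he heH (ContinuousMap.const _ (a • e)) (good_const heH he ha) =
      GenLoop.const := by
  refine GenLoop.ext _ _ fun y => PP.ext fun t => Subtype.ext ?_
  rw [glf_val]
  exact Ray.nrm he ⟨a, ha, rfl⟩

/-! ### Unit spheroids -/

/-- The unit map of a map into the punctured space. -/
noncomputable def un (G : C((M → I) × I, NZ V)) : C((M → I) × I, V) :=
  ⟨fun y => ‖(G y).1‖⁻¹ • (G y).1, by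
    have h : Continuous fun y => (G y).1 := continuous_subtype_val.comp G.continuous
    exact (h.norm.inv₀ fun y => norm_ne_zero_iff.2 (G y).2).smul h⟩

section Un

variable (G : C((M → I) × I, NZ V))

theorem un_apply (y : (M → I) × I) : un G y = ‖(G y).1‖⁻¹ • (G y).1 := rfl

theorem norm_un (y : (M → I) × I) : ‖un G y‖ = 1 := by
  rw [un_apply, norm_smul, norm_inv, norm_norm, inv_mul_cancel₀ (norm_ne_zero_iff.2 (G y).2)]

/-- The function `a e + b u`, `u` the unit map of `G`. -/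
noncomputable def aff (e : V) (a b : ℝ) : C((M → I) × I, V) :=
  ⟨fun y => a • e + b • un G y, by fun_prop⟩

theorem aff_apply (e : V) (a b : ℝ) (y : (M → I) × I) : aff G e a b y = a • e + b • un G y := rfl

theorem aff_ne (he : ‖e‖ = 1) {a b : ℝ} (h : |a| ≠ |b|) (y : (M → I) × I) :
    aff G e a b y ≠ 0 := by
  intro h0
  have h1 : a • e = -(b • un G y) := eq_neg_of_add_eq_zero_left h0
  have h2 := congrArg norm h1
  rw [norm_neg, norm_smul, norm_smul, he, norm_un, mul_one, mul_one, Real.norm_eq_abs,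
    Real.norm_eq_abs] at h2
  exact h h2

variable {G} {he : ‖e‖ = 1}

theorem un_rim (hG : PP.Rel (nzH H) (pt e he) G) (y : M → I) : un G (y, 0) ∈ H :=
  H.smul_mem _ (hG.rim y)

theorem un_top (hG : PP.Rel (nzH H) (pt e he) G) (y : M → I) : un G (y, 1) = e := by
  rw [un_apply, hG.top y, pt_val, he, inv_one, one_smul]

theorem un_side (hG : PP.Rel (nzH H) (pt e he) G) {y : M → I} (hy : y ∈ Cube.boundary M)
    (t : I) : un G (y, t) = e := by
  rw [un_apply, hG.side y hy t, pt_val, he, inv_one, one_smul]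

theorem aff_good (heH : e ∈ H) (hG : PP.Rel (nzH H) (pt e he) G) {a b : ℝ} (h : |a| ≠ |b|)
    (hab : 0 < a + b) : Good H e (aff G e a b) where
  ne y := aff_ne G he h y
  rim y := H.add_mem (H.smul_mem _ heH) (H.smul_mem _ (un_rim hG y))
  top y := ⟨a + b, hab, by rw [aff_apply, un_top hG, add_smul]⟩
  side y hy t := ⟨a + b, hab, by rw [aff_apply, un_side hG hy, add_smul]⟩

/-- The dominant term is the constant. -/
theorem aff_one (heH : e ∈ H) {a b : ℝ} (h : |b| < a) (hg : Good H e (aff G e a b)) :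
    GenLoop.Homotopic (glf he heH _ hg) GenLoop.const := by
  have ha : 0 < a := (abs_nonneg b).trans_lt h
  rw [← glf_const (M := M) he heH ha]
  refine glf_homotopic he heH hg (good_const heH he ha) fun s hs y h0 => ?_
  have h1 : (1 - s) • aff G e a b y + s • (ContinuousMap.const ((M → I) × I) (a • e)) y =
      aff G e a ((1 - s) * b) y := by
    rw [aff_apply, aff_apply, ContinuousMap.const_apply]
    module
  rw [h1] at h0
  refine aff_ne G he (a := a) (b := (1 - s) * b) ?_ y h0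
  rw [abs_of_pos ha, abs_mul, abs_of_nonneg (by linarith [hs.2] : 0 ≤ 1 - s)]
  have : (1 - s) * |b| ≤ 1 * |b| :=
    mul_le_mul_of_nonneg_right (by linarith [hs.1]) (abs_nonneg b)
  intro hc
  linarith

/-- The dominant term is the spheroid. -/
theorem aff_self (heH : e ∈ H) (hG : PP.Rel (nzH H) (pt e he) G) {a b : ℝ} (h : |a| < b)
    (hg : Good H e (aff G e a b)) :
    GenLoop.Homotopic (glf he heH _ hg) (PP.toGL (pt_mem he heH) G hG) := by
  have hb : 0 < b := (abs_nonneg a).trans_lt h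
  have hg' : Good H e (aff G e 0 b) := aff_good heH hG (by
    rw [abs_zero, abs_of_pos hb]; exact hb.ne) (by linarith)
  have h1 : GenLoop.Homotopic (glf he heH _ hg) (glf he heH _ hg') := by
    refine glf_homotopic he heH hg hg' fun s hs y h0 => ?_
    have h1 : (1 - s) • aff G e a b y + s • aff G e 0 b y = aff G e ((1 - s) * a) b y := by
      rw [aff_apply, aff_apply, aff_apply]
      module
    rw [h1] at h0
    refine aff_ne G he (a := (1 - s) * a) (b := b) ?_ y h0
    rw [abs_of_pos hb, abs_mul, abs_of_nonneg (by linarith [hs.2] : 0 ≤ 1 - s)]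
    have : (1 - s) * |a| ≤ 1 * |a| :=
      mul_le_mul_of_nonneg_right (by linarith [hs.1]) (abs_nonneg a)
    intro hc
    linarith
  refine h1.trans ?_
  -- from the normalised spheroid to `q`
  refine PP.homotopic_iff.2 ?_
  have hcq : Continuous fun y => (G y).1 := continuous_subtype_val.comp G.continuous
  have hcn : Continuous fun y => ‖(G y).1‖⁻¹ := hcq.norm.inv₀ fun y => norm_ne_zero_iff.2 (G y).2
  have hpos : ∀ z : I × ((M → I) × I), 0 < (1 - (z.1 : ℝ)) * ‖(G z.2).1‖⁻¹ + (z.1 : ℝ) := by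
    intro z
    have h2 : 0 < ‖(G z.2).1‖⁻¹ := inv_pos.2 (norm_pos_iff.2 (G z.2).2)
    rcases eq_or_lt_of_le z.1.2.1 with h3 | h3
    · rw [← h3]; simpa using h2
    · exact add_pos_of_nonneg_of_pos (mul_nonneg (by linarith [z.1.2.2]) h2.le) h3
  refine ⟨⟨fun z => ⟨((1 - (z.1 : ℝ)) * ‖(G z.2).1‖⁻¹ + (z.1 : ℝ)) • (G z.2).1,
    smul_ne_zero (hpos z).ne' (G z.2).2⟩, ?_⟩, fun y => ?_, fun y => ?_,
    fun s => ⟨fun y => ?_, fun y => ?_, fun y hy t => ?_⟩⟩
  · refine Continuous.subtype_mk ?_ _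
    have h5 : Continuous fun z : I × ((M → I) × I) => ‖(G z.2).1‖⁻¹ := hcn.comp continuous_snd
    have h6 : Continuous fun z : I × ((M → I) × I) => (G z.2).1 := hcq.comp continuous_snd
    have h7 : Continuous fun z : I × ((M → I) × I) => (z.1 : ℝ) :=
      continuous_subtype_val.comp continuous_fst
    exact (((continuous_const.sub h7).mul h5).add h7).smul h6
  · refine Subtype.ext ?_
    change ((1 - ((0 : I) : ℝ)) * ‖(G y).1‖⁻¹ + ((0 : I) : ℝ)) • (G y).1 =
      ‖aff G e 0 b y‖⁻¹ • aff G e 0 b y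
    have h8 : aff G e 0 b y = b • un G y := by rw [aff_apply, zero_smul, zero_add]
    rw [h8, norm_smul, norm_un, mul_one, Real.norm_of_nonneg hb.le, smul_smul,
      inv_mul_cancel₀ hb.ne', one_smul, un_apply]
    simp
  · refine Subtype.ext ?_
    change ((1 - ((1 : I) : ℝ)) * ‖(G y).1‖⁻¹ + ((1 : I) : ℝ)) • (G y).1 = (G y).1
    simp
  · exact H.smul_mem _ (hG.rim y)
  · refine Subtype.ext ?_
    change ((1 - (s : ℝ)) * ‖(G (y, 1)).1‖⁻¹ + (s : ℝ)) • (G (y, 1)).1 = e
    rw [hG.top y, pt_val, he]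
    simp
  · refine Subtype.ext ?_
    change ((1 - (s : ℝ)) * ‖(G (y, t)).1‖⁻¹ + (s : ℝ)) • (G (y, t)).1 = e
    rw [hG.side y hy t, pt_val, he]
    simp

end Un

end Vale.Agent.P268.T.H839
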