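import Vale.Agent.P268.T.H277.Props
import Vale.Agent.P268.T.A109.Null
import Vale.Agent.P268.T.A109.Types

/-!
# P268, topological half, block B6: the start data of a slide

* `exists_literal`: the normal of the strand `j` may be assumed to be literally `psiMap ∘ θ`.
* `start_fam`: the data of the product `transAt 0 b b'` (`b` moves only `k`, `b'` fixes `k`) are
  homotopic to windowed data `stB`, `stN`: `k` follows `b` over `-3/4 ≤ x 0 ≤ -1/2`, the other
  strands follow `b'` over `1/4 ≤ x 0 ≤ 1/2`.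
* `null_cube`: null-homotopies of the differences over the cube.
-/

namespace Vale.Agent.P268.T.H839

open scoped unitInterval Topology Topology.Homotopy RealInnerProductSpace
open Set Metric Vale.Agent.P268.H288 Vale.Agent.P268.T.A109

variable {V : Type*} [NormedAddCommGroup V] [InnerProductSpace ℝ V] (φ : Fr V)

/-! ### The normal of one strand -/

section Literal

variable {M : Type*} [DecidableEq M] [Nonempty M] {r : ℕ}

/-- The normal of the strand `j` may be assumed to be `psiMap ∘ θ`. -/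
theorem exists_literal {j : Fin r} {b : φ.BrL M r} {θ : φ.PiL M}
    (h : φ.twH M j (hcl b) = φ.psiH M (hcl θ)) :
    ∃ c : φ.BrL M r, hcl c = hcl b ∧ (∀ y t i, ((c y).1 t).1.1 i = ((b y).1 t).1.1 i) ∧
      (∀ y t i, i ≠ j → ((c y).1 t).2 i = ((b y).1 t).2 i) ∧
      ∀ y t, ((c y).1 t).2 j = φ.psiMap ((θ y).1 t) := by
  obtain ⟨E, E0, E1, E2, E3, E4⟩ := φ.exists_homotopy_psi h
  have hR := PP.rel_ofGL b
  -- the homotopy
  have hc : Continuous fun z : I × ((M → I) × I) => (((PP.ofGL b z.2).1,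
      fun i => if i = j then E z else (PP.ofGL b z.2).2 i) : BX V r) := by
    refine Continuous.prodMk (continuous_fst.comp ((PP.ofGL b).continuous.comp continuous_snd))
      (continuous_pi fun i => ?_)
    split_ifs
    · exact E.continuous
    · exact (continuous_apply i).comp
        (continuous_snd.comp ((PP.ofGL b).continuous.comp continuous_snd))
  have hbase : ∀ (s : I) (q : (M → I) × I), PP.ofGL b q = φ.bx r → E (s, q) = φ.h1 →
      (((PP.ofGL b q).1, fun i => if i = j then E (s, q) else (PP.ofGL b q).2 i) : BX V r) =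
        φ.bx r := by
    intro s q h1 h2
    rw [h1, h2]
    refine Prod.ext rfl (funext fun i => ?_)
    show (if i = j then φ.h1 else φ.h1) = φ.h1
    rw [ite_self]
  have hrel : ∀ s : I, PP.Rel (φ.BA r) (φ.bx r) fun q => (((PP.ofGL b q).1,
      fun i => if i = j then E (s, q) else (PP.ofGL b q).2 i) : BX V r) := by
    intro s
    refine ⟨fun y => ⟨(hR.rim y).1, fun i => ?_⟩, fun y => hbase s _ (hR.top y) (E3 s y),
      fun y hy t => hbase s _ (hR.side y hy t) (E2 s y hy t)⟩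
    show (if i = j then E (s, (y, 0)) else (PP.ofGL b (y, 0)).2 i) = φ.h1
    split_ifs
    · exact E4 s y
    · exact (hR.rim y).2 i
  refine ⟨PP.toGL (φ.bx_mem r) ⟨fun q => ((PP.ofGL b q).1,
      fun i => if i = j then E (1, q) else (PP.ofGL b q).2 i),
      hc.comp (continuous_const.prodMk continuous_id)⟩ (hrel 1), ?_, fun _ _ _ => rfl,
      fun y t i hi => if_neg hi, fun y t => ?_⟩
  · refine (hcl_eq_iff.2 (PP.homotopic_iff.2 ⟨⟨_, hc⟩, fun q => ?_, fun q => rfl, hrel⟩)).symm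
    refine Prod.ext rfl (funext fun i => ?_)
    show (if i = j then E (0, q) else (PP.ofGL b q).2 i) = (PP.ofGL b q).2 i
    split_ifs with hi
    · rw [hi, E0]
    · rfl
  · show (if j = j then E (1, (y, t)) else (PP.ofGL b (y, t)).2 j) = _
    rw [if_pos rfl, E1]
    rfl

end Literal

/-! ### Windows -/

/-- Clamp to the unit interval. -/
noncomputable def clI (z : ℝ) : I := projIcc 0 1 zero_le_one z

theorem clI_val (z : ℝ) : (clI z : ℝ) = max 0 (min 1 z) := by
  rw [clI, coe_projIcc]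

theorem clI_of_le {z : ℝ} (h : z ≤ 0) : clI z = 0 := projIcc_of_le_left _ h

theorem clI_of_ge {z : ℝ} (h : 1 ≤ z) : clI z = 1 := projIcc_of_right_le _ h

theorem continuous_clI : Continuous clI := continuous_projIcc (h := zero_le_one)

theorem clI_coe (z : I) : clI (z : ℝ) = z := projIcc_val _ z

variable {m : ℕ}

/-- The point of the cube with modified first coordinate. -/
noncomputable def cubeAt [NeZero m] (z : ℝ) (x : Fin (m + 1) → ℝ) : (Fin m → I) × I :=
  (Function.update (cubeM x).1 0 (clI z), (cubeM x).2)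

theorem continuous_cubeAt [NeZero m] {f : (Fin (m + 1) → ℝ) → ℝ} (hf : Continuous f) :
    Continuous fun x : Fin (m + 1) → ℝ => cubeAt (f x) x := by
  refine Continuous.prodMk ?_ (continuous_snd.comp continuous_cubeM)
  exact (continuous_fst.comp continuous_cubeM).update 0 (continuous_clI.comp hf)

theorem cubeAt_boundary [NeZero m] {z : ℝ} (hz : z ≤ 0 ∨ 1 ≤ z) (x : Fin (m + 1) → ℝ) :
    (cubeAt z x).1 ∈ Cube.boundary (Fin m) := by
  refine ⟨0, ?_⟩
  show Function.update (cubeM x).1 0 (clI z) 0 = 0 ∨ Function.update (cubeM x).1 0 (clI z) 0 = 1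
  rw [Function.update_self]
  rcases hz with h | h
  · exact Or.inl (clI_of_le h)
  · exact Or.inr (clI_of_ge h)

/-- The piecewise linear reparametrisation. -/
noncomputable def phw (z : ℝ) : ℝ := (clI (4 * z + 3) : ℝ) + (clI (4 * z - 1) : ℝ) - 1

theorem continuous_phw : Continuous phw := by
  have h : Continuous fun z : ℝ => (clI z : ℝ) := continuous_subtype_val.comp continuous_clI
  unfold phw
  exact ((h.comp (by fun_prop)).add (h.comp (by fun_prop))).sub continuous_const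

theorem phw_mem (z : ℝ) : phw z ∈ Icc (-1 : ℝ) 1 := by
  have h1 := (clI (4 * z + 3)).2
  have h2 := (clI (4 * z - 1)).2
  unfold phw
  constructor
  · linarith [h1.1, h2.1]
  · linarith [h1.2, h2.2]

theorem phw_one : phw 1 = 1 := by
  rw [phw, clI_of_ge (by norm_num), clI_of_ge (by norm_num)]
  norm_num

theorem phw_neg_one : phw (-1) = -1 := by
  rw [phw, clI_of_le (by norm_num), clI_of_le (by norm_num)]
  norm_num

theorem phw_of_le {z : ℝ} (h : z ≤ 1 / 4) : phw z = (clI (4 * z + 3) : ℝ) - 1 := by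
  rw [phw, clI_of_le (z := 4 * z - 1) (by linarith), Icc.coe_zero, add_zero]

theorem phw_of_ge {z : ℝ} (h : -1 / 2 ≤ z) : phw z = (clI (4 * z - 1) : ℝ) := by
  rw [phw, clI_of_ge (z := 4 * z + 3) (by linarith), Icc.coe_one]
  ring

/-- The reparametrisation of the cube. -/
noncomputable def win (τ : ℝ) (x : Fin (m + 1) → ℝ) : Fin (m + 1) → ℝ :=
  Function.update x 0 ((1 - τ) * x 0 + τ * phw (x 0))

theorem continuous_win : Continuous fun q : ℝ × (Fin (m + 1) → ℝ) => win q.1 q.2 := by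
  have h0 : Continuous fun q : ℝ × (Fin (m + 1) → ℝ) => q.2 0 :=
    (continuous_apply 0).comp continuous_snd
  exact continuous_snd.update 0 (((continuous_const.sub continuous_fst).mul h0).add
    (continuous_fst.mul (continuous_phw.comp h0)))

theorem win_zero (x : Fin (m + 1) → ℝ) : win 0 x = x := by
  unfold win
  rw [sub_zero, one_mul, zero_mul, add_zero, Function.update_eq_self]

theorem abs_coord {τ : ℝ} (hτ : τ ∈ Icc (0 : ℝ) 1) {z : ℝ} (hz : |z| ≤ 1) :
    |(1 - τ) * z + τ * phw z| ≤ 1 := by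
  obtain ⟨h1, h2⟩ := abs_le.1 hz
  obtain ⟨h3, h4⟩ := phw_mem z
  rw [abs_le]
  constructor
  · nlinarith [mul_nonneg (sub_nonneg.2 hτ.2) (by linarith : 0 ≤ z + 1),
      mul_nonneg hτ.1 (by linarith : 0 ≤ phw z + 1)]
  · nlinarith [mul_nonneg (sub_nonneg.2 hτ.2) (by linarith : 0 ≤ 1 - z),
      mul_nonneg hτ.1 (by linarith : 0 ≤ 1 - phw z)]

theorem norm_win_le {τ : ℝ} (hτ : τ ∈ Icc (0 : ℝ) 1) {x : Fin (m + 1) → ℝ} (hx : ‖x‖ ≤ 1) :
    ‖win τ x‖ ≤ 1 := by
  refine (pi_norm_le_iff_of_nonneg zero_le_one).2 fun i => ?_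
  unfold win
  rcases eq_or_ne i 0 with h | h
  · subst h
    rw [Function.update_self, Real.norm_eq_abs]
    exact abs_coord hτ ((norm_le_pi_norm x 0).trans hx)
  · rw [Function.update_of_ne h]
    exact (norm_le_pi_norm x i).trans hx

theorem norm_win {τ : ℝ} (hτ : τ ∈ Icc (0 : ℝ) 1) {x : Fin (m + 1) → ℝ} (hx : ‖x‖ = 1) :
    ‖win τ x‖ = 1 := by
  refine le_antisymm (norm_win_le hτ hx.le) ?_
  obtain ⟨i, hi⟩ : ∃ i, |x i| = 1 := by
    by_contra hcon
    push Not at hcon
    have h1 : ∀ i, ‖x i‖ < 1 := fun i =>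
      lt_of_le_of_ne ((norm_le_pi_norm x i).trans hx.le) (hcon i)
    exact absurd hx ((pi_norm_lt_iff one_pos).mpr h1).ne
  have key : |win τ x i| = 1 := by
    unfold win
    rcases eq_or_ne i 0 with h | h
    · subst h
      rw [Function.update_self]
      rcases (abs_eq zero_le_one).1 hi with h1 | h1
      · rw [h1, phw_one]
        norm_num
      · rw [h1, phw_neg_one]
        have h2 : (1 - τ) * (-1 : ℝ) + τ * -1 = -1 := by ring
        rw [h2, abs_neg, abs_one]
    · rw [Function.update_of_ne h]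
      exact hi
  calc (1 : ℝ) = ‖win τ x i‖ := key.symm
    _ ≤ ‖win τ x‖ := norm_le_pi_norm _ i

/-- Reparametrised data. -/
theorem bFam_win {A : Type*} {e : V} {b ν : A → (Fin (m + 1) → ℝ) → V}
    (h : BFam (Icc (0 : ℝ) 1) e (fun _ => b) fun _ => ν) :
    BFam (Icc (0 : ℝ) 1) e (fun τ a x => b a (win τ x)) fun τ a x => ν a (win τ x) where
  cb a := (h.cb a).comp (f := fun q : ℝ × (Fin (m + 1) → ℝ) => ((0 : ℝ), win q.1 q.2))
    (continuous_const.prodMk continuous_win).continuousOn fun _ hq =>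
      ⟨⟨le_rfl, zero_le_one⟩, mem_closedBall_zero_iff.2
        (norm_win_le hq.1 (mem_closedBall_zero_iff.1 hq.2))⟩
  cn a := (h.cn a).comp (f := fun q : ℝ × (Fin (m + 1) → ℝ) => ((0 : ℝ), win q.1 q.2))
    (continuous_const.prodMk continuous_win).continuousOn fun _ hq =>
      ⟨⟨le_rfl, zero_le_one⟩, mem_closedBall_zero_iff.2
        (norm_win_le hq.1 (mem_closedBall_zero_iff.1 hq.2))⟩
  nn t ht a _ hx := h.nn t ht a _ (mem_closedBall_zero_iff.2
    (norm_win_le ht (mem_closedBall_zero_iff.1 hx)))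
  inj t ht _ hx := h.inj t ht _ (mem_closedBall_zero_iff.2
    (norm_win_le ht (mem_closedBall_zero_iff.1 hx)))
  bh t ht a _ hx := h.bh t ht a _ (norm_win ht hx)
  nh t ht a _ hx := h.nh t ht a _ (norm_win ht hx)

/-! ### The windowed data -/

section Data

variable {r : ℕ} [NeZero m]

/-- Centres of the start data. -/
noncomputable def stB (b b' : φ.BrL (Fin m) r) (ρ : ℝ) (k : Fin r) :
    Option (Fin r) → (Fin (m + 1) → ℝ) → V
  | none, _ => -(ρ • φ.e)
  | some i, x => if i = k then (PP.ofGL b (cubeAt (4 * x 0 + 3) x)).1.1 i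
      else (PP.ofGL b' (cubeAt (4 * x 0 - 1) x)).1.1 i

/-- Normals of the start data. -/
noncomputable def stN (b b' : φ.BrL (Fin m) r) (k : Fin r) :
    Option (Fin r) → (Fin (m + 1) → ℝ) → V
  | none, _ => φ.h
  | some i, x => if i = k then (PP.ofGL b (cubeAt (4 * x 0 + 3) x)).2 i
      else (PP.ofGL b' (cubeAt (4 * x 0 - 1) x)).2 i

theorem ofGL_boundary {b : φ.BrL (Fin m) r} {z : ℝ} (hz : z ≤ 0 ∨ 1 ≤ z)
    (x : Fin (m + 1) → ℝ) : PP.ofGL b (cubeAt z x) = φ.bx r :=
  (PP.rel_ofGL b).side _ (cubeAt_boundary hz x) _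

/-- The strand `k` is constant to the right of `x 0 = -1/2`. -/
theorem stB_k_right (b b' : φ.BrL (Fin m) r) (ρ : ℝ) (k : Fin r) {x : Fin (m + 1) → ℝ}
    (hx : -1 / 2 ≤ x 0) : stB φ b b' ρ k (some k) x = φ.base r k ∧
      stN φ b b' k (some k) x = φ.h := by
  have h := ofGL_boundary φ (b := b) (Or.inr (by linarith : 1 ≤ 4 * x 0 + 3)) x
  constructor
  · show (if k = k then (PP.ofGL b (cubeAt (4 * x 0 + 3) x)).1.1 k else _) = _
    rw [if_pos rfl, h]
    rfl
  · show (if k = k then ((PP.ofGL b (cubeAt (4 * x 0 + 3) x)).2 k : V) else _) = _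
    rw [if_pos rfl, h]
    rfl

theorem stB_k_left (b b' : φ.BrL (Fin m) r) (ρ : ℝ) (k : Fin r) {x : Fin (m + 1) → ℝ}
    (hx : x 0 ≤ -3 / 4) : stB φ b b' ρ k (some k) x = φ.base r k ∧
      stN φ b b' k (some k) x = φ.h := by
  have h := ofGL_boundary φ (b := b) (Or.inl (by linarith : 4 * x 0 + 3 ≤ 0)) x
  constructor
  · show (if k = k then (PP.ofGL b (cubeAt (4 * x 0 + 3) x)).1.1 k else _) = _
    rw [if_pos rfl, h]
    rfl
  · show (if k = k then ((PP.ofGL b (cubeAt (4 * x 0 + 3) x)).2 k : V) else _) = _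
    rw [if_pos rfl, h]
    rfl

/-- The other strands are constant to the left of `x 0 = 1/4`. -/
theorem stB_left (b b' : φ.BrL (Fin m) r) (ρ : ℝ) {i k : Fin r} (hi : i ≠ k)
    {x : Fin (m + 1) → ℝ} (hx : x 0 ≤ 1 / 4) : stB φ b b' ρ k (some i) x = φ.base r i ∧
      stN φ b b' k (some i) x = φ.h := by
  have h := ofGL_boundary φ (b := b') (Or.inl (by linarith : 4 * x 0 - 1 ≤ 0)) x
  constructor
  · show (if i = k then _ else (PP.ofGL b' (cubeAt (4 * x 0 - 1) x)).1.1 i) = _
    rw [if_neg hi, h]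
    rfl
  · show (if i = k then _ else ((PP.ofGL b' (cubeAt (4 * x 0 - 1) x)).2 i : V)) = _
    rw [if_neg hi, h]
    rfl

theorem stB_right (b b' : φ.BrL (Fin m) r) (ρ : ℝ) {i k : Fin r} (hi : i ≠ k)
    {x : Fin (m + 1) → ℝ} (hx : 1 / 2 ≤ x 0) : stB φ b b' ρ k (some i) x = φ.base r i ∧
      stN φ b b' k (some i) x = φ.h := by
  have h := ofGL_boundary φ (b := b') (Or.inr (by linarith : 1 ≤ 4 * x 0 - 1)) x
  constructor
  · show (if i = k then _ else (PP.ofGL b' (cubeAt (4 * x 0 - 1) x)).1.1 i) = _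
    rw [if_neg hi, h]
    rfl
  · show (if i = k then _ else ((PP.ofGL b' (cubeAt (4 * x 0 - 1) x)).2 i : V)) = _
    rw [if_neg hi, h]
    rfl

/-- The value of the product at a reparametrised point. -/
theorem transAt_win (b b' : φ.BrL (Fin m) r) (x : Fin (m + 1) → ℝ) :
    (x 0 ≤ 1 / 4 → PP.ofGL (GenLoop.transAt 0 b b') (cubeM (win 1 x)) =
      PP.ofGL b (cubeAt (4 * x 0 + 3) x)) ∧
    (1 / 4 < x 0 → PP.ofGL (GenLoop.transAt 0 b b') (cubeM (win 1 x)) =
      PP.ofGL b' (cubeAt (4 * x 0 - 1) x)) := by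
  -- the coordinates of the reparametrised point
  have hlast : (Fin.last m) ≠ (0 : Fin (m + 1)) := by
    rw [Ne, Fin.ext_iff, Fin.val_last, Fin.val_zero]
    exact NeZero.ne m
  have hw0 : (win 1 x) 0 = phw (x 0) := by
    unfold win
    rw [Function.update_self]
    ring
  have hsnd : (cubeM (win 1 x)).2 = (cubeM x).2 := by
    show projIcc 0 1 zero_le_one ((win 1 x (Fin.last m) + 1) / 2) = _
    unfold win
    rw [Function.update_of_ne hlast]
    rfl
  have h00 : ((0 : Fin m).castSucc : Fin (m + 1)) = 0 := rfl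
  have hfst : ∀ w : I, Function.update (cubeM (win 1 x)).1 0 w =
      Function.update (cubeM x).1 0 w := by
    intro w
    funext i
    rcases eq_or_ne i 0 with h | h
    · subst h
      rw [Function.update_self, Function.update_self]
    · rw [Function.update_of_ne h, Function.update_of_ne h]
      show projIcc 0 1 zero_le_one ((win 1 x i.castSucc + 1) / 2) = _
      unfold win
      have h1 : i.castSucc ≠ (0 : Fin (m + 1)) := fun h2 => h (Fin.castSucc_injective m h2)
      rw [Function.update_of_ne h1]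
      rfl
  have hy0 : (((cubeM (win 1 x)).1 0 : I) : ℝ) = (phw (x 0) + 1) / 2 := by
    have h1 : (cubeM (win 1 x)).1 0 = projIcc 0 1 zero_le_one ((win 1 x 0 + 1) / 2) := rfl
    rw [h1, hw0, coe_projIcc]
    obtain ⟨h3, h4⟩ := phw_mem (x 0)
    rw [min_eq_right (by linarith), max_eq_right (by linarith)]
  have hval : (GenLoop.transAt 0 b b') (cubeM (win 1 x)).1 =
      if (((cubeM (win 1 x)).1 0 : I) : ℝ) ≤ 1 / 2
      then b (Function.update (cubeM (win 1 x)).1 0
        (projIcc 0 1 zero_le_one (2 * (((cubeM (win 1 x)).1 0 : I) : ℝ))))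
      else b' (Function.update (cubeM (win 1 x)).1 0
        (projIcc 0 1 zero_le_one (2 * (((cubeM (win 1 x)).1 0 : I) : ℝ) - 1))) := by
    simp only [GenLoop.transAt, GenLoop.coe_copy]
  constructor
  · intro hx
    have h1 : 2 * ((phw (x 0) + 1) / 2) = (clI (4 * x 0 + 3) : ℝ) := by
      rw [phw_of_le hx]
      ring
    have h2 : (phw (x 0) + 1) / 2 ≤ 1 / 2 := by
      have := (clI (4 * x 0 + 3)).2.2
      linarith
    show ((GenLoop.transAt 0 b b') (cubeM (win 1 x)).1).1 (cubeM (win 1 x)).2 = _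
    rw [hval, hy0, if_pos h2, h1, hfst, hsnd]
    have h3 : projIcc (0 : ℝ) 1 zero_le_one ((clI (4 * x 0 + 3) : I) : ℝ) =
        clI (4 * x 0 + 3) := projIcc_val _ _
    rw [h3]
    rfl
  · intro hx
    have h1 : 2 * ((phw (x 0) + 1) / 2) - 1 = (clI (4 * x 0 - 1) : ℝ) := by
      rw [phw_of_ge (by linarith)]
      ring
    have h2 : ¬ (phw (x 0) + 1) / 2 ≤ 1 / 2 := by
      rw [phw_of_ge (by linarith), clI_val]
      have h5 : 0 < min (1 : ℝ) (4 * x 0 - 1) := lt_min one_pos (by linarith)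
      have h6 : 0 < max 0 (min (1 : ℝ) (4 * x 0 - 1)) := lt_max_of_lt_right h5
      linarith
    show ((GenLoop.transAt 0 b b') (cubeM (win 1 x)).1).1 (cubeM (win 1 x)).2 = _
    rw [hval, hy0, if_neg h2, h1, hfst, hsnd]
    have h3 : projIcc (0 : ℝ) 1 zero_le_one ((clI (4 * x 0 - 1) : I) : ℝ) =
        clI (4 * x 0 - 1) := projIcc_val _ _
    rw [h3]
    rfl

variable {b b' : φ.BrL (Fin m) r} {k : Fin r}

/-- The reparametrised data of the product are the start data. -/
theorem win_eq (hb : φ.OnlyMoves k b) (hb' : φ.Fixed k b') (ρ : ℝ) :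
    (fun a x => shB φ (GenLoop.transAt 0 b b') ρ a (win 1 x)) = stB φ b b' ρ k ∧
    (fun a x => nuB φ (GenLoop.transAt 0 b b') a (win 1 x)) = stN φ b b' k := by
  have hB : ∀ i, i ≠ k → ∀ q, (PP.ofGL b q).1.1 i = φ.base r i ∧ (PP.ofGL b q).2 i = φ.h1 :=
    fun i hi q => hb q.1 q.2 i hi
  have hB' : ∀ q, (PP.ofGL b' q).1.1 k = φ.base r k ∧ (PP.ofGL b' q).2 k = φ.h1 :=
    fun q => hb' q.1 q.2
  constructor
  · funext a x
    cases a with
    | none => rfl
    | some i =>
      show (PP.ofGL (GenLoop.transAt 0 b b') (cubeM (win 1 x))).1.1 i = if i = k then _ else _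
      rcases le_or_gt (x 0) (1 / 4) with hx | hx
      · rw [(transAt_win φ b b' x).1 hx]
        split_ifs with hi
        · rfl
        · rw [(hB i hi _).1, ofGL_boundary φ (b := b')
            (Or.inl (by linarith : 4 * x 0 - 1 ≤ 0)) x]
          rfl
      · rw [(transAt_win φ b b' x).2 hx]
        split_ifs with hi
        · subst hi
          rw [(hB' _).1, ofGL_boundary φ (b := b)
            (Or.inr (by linarith : 1 ≤ 4 * x 0 + 3)) x]
          rfl
        · rfl
  · funext a x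
    cases a with
    | none => rfl
    | some i =>
      show ((PP.ofGL (GenLoop.transAt 0 b b') (cubeM (win 1 x))).2 i : V) =
        if i = k then _ else _
      rcases le_or_gt (x 0) (1 / 4) with hx | hx
      · rw [(transAt_win φ b b' x).1 hx]
        split_ifs with hi
        · rfl
        · rw [(hB i hi _).2, ofGL_boundary φ (b := b')
            (Or.inl (by linarith : 4 * x 0 - 1 ≤ 0)) x]
          rfl
      · rw [(transAt_win φ b b' x).2 hx]
        split_ifs with hi
        · subst hi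
          rw [(hB' _).2, ofGL_boundary φ (b := b)
            (Or.inr (by linarith : 1 ≤ 4 * x 0 + 3)) x]
          rfl
        · rfl

/-- **Start data.** -/
theorem start_fam (hb : φ.OnlyMoves k b) (hb' : φ.Fixed k b') {ρ : ℝ}
    (hρ : ∀ (i : Fin r) (q : (Fin m → I) × I),
      ‖(PP.ofGL (GenLoop.transAt 0 b b') q).1.1 i‖ < ρ) :
    ∃ B N : ℝ → Option (Fin r) → (Fin (m + 1) → ℝ) → V, BFam (Icc (0 : ℝ) 1) φ.h B N ∧
      B 0 = shB φ (GenLoop.transAt 0 b b') ρ ∧ N 0 = nuB φ (GenLoop.transAt 0 b b') ∧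
      B 1 = stB φ b b' ρ k ∧ N 1 = stN φ b b' k := by
  have h1 : BFam (Icc (0 : ℝ) 1) φ.h (fun _ => shB φ (GenLoop.transAt 0 b b') ρ)
      fun _ => nuB φ (GenLoop.transAt 0 b b') :=
    bFam_of_rel φ (H := fun _ q => ((GenLoop.transAt 0 b b') q.1).1 q.2) (ρ := fun _ => ρ)
      ((continuous_ofBr φ (GenLoop.transAt 0 b b')).comp continuous_snd)
      (fun _ _ => PP.rel_ofGL (GenLoop.transAt 0 b b')) continuous_const (fun _ _ => hρ)
  refine ⟨_, _, bFam_win h1, ?_, ?_, (win_eq φ hb hb' ρ).1, (win_eq φ hb hb' ρ).2⟩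
  · funext a x
    rw [win_zero]
  · funext a x
    rw [win_zero]

/-- Two points of the cube with the same modified coordinates. -/
theorem cubeAt_congr {x y : Fin (m + 1) → ℝ} (h : ∀ l, l ≠ 0 → x l = y l) {z w : ℝ}
    (hzw : clI z = clI w) : cubeAt z x = cubeAt w y := by
  have hlast : (Fin.last m) ≠ (0 : Fin (m + 1)) := by
    rw [Ne, Fin.ext_iff, Fin.val_last, Fin.val_zero]
    exact NeZero.ne m
  refine Prod.ext (funext fun i => ?_) ?_
  · show Function.update (cubeM x).1 0 (clI z) i = Function.update (cubeM y).1 0 (clI w) i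
    rcases eq_or_ne i 0 with h0 | h0
    · subst h0
      rw [Function.update_self, Function.update_self, hzw]
    · rw [Function.update_of_ne h0, Function.update_of_ne h0]
      have h1 : i.castSucc ≠ (0 : Fin (m + 1)) := fun h2 => h0 (Fin.castSucc_injective m h2)
      show projIcc 0 1 zero_le_one ((x i.castSucc + 1) / 2) =
        projIcc 0 1 zero_le_one ((y i.castSucc + 1) / 2)
      rw [h _ h1]
  · show projIcc 0 1 zero_le_one ((x (Fin.last m) + 1) / 2) =
      projIcc 0 1 zero_le_one ((y (Fin.last m) + 1) / 2)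
    rw [h _ hlast]

end Data

/-! ### The standard frame -/

section Std

variable {d r : ℕ} {b b' : (frk d).BrL (Fin (d + 2)) r} {k : Fin r}

/-- The activity windows of the start data. -/
theorem stB_constOn (b b' : (frk d).BrL (Fin (d + 2)) r) (ρ : ℝ) (k : Fin r)
    (a : Option (Fin r)) {α β : ℝ}
    (h1 : β ≤ -3 / 4 ∨ (-1 / 2 ≤ α ∧ β ≤ 1 / 4) ∨ 1 / 2 ≤ α) :
    ConstOn α β (stB (frk d) b b' ρ k a) ∧ ConstOn α β (stN (frk d) b b' k a) := by
  have key : ∀ x : Pk d, α ≤ x 0 → x 0 ≤ β → ∀ y : Pk d, α ≤ y 0 → y 0 ≤ β →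
      clI (4 * x 0 + 3) = clI (4 * y 0 + 3) ∧ clI (4 * x 0 - 1) = clI (4 * y 0 - 1) := by
    intro x hx hx' y hy hy'
    rcases h1 with h | ⟨h, h'⟩ | h
    · rw [clI_of_le (by linarith), clI_of_le (by linarith), clI_of_le (z := 4 * x 0 - 1)
        (by linarith), clI_of_le (z := 4 * y 0 - 1) (by linarith)]
      exact ⟨rfl, rfl⟩
    · rw [clI_of_ge (by linarith), clI_of_ge (by linarith), clI_of_le (z := 4 * x 0 - 1)
        (by linarith), clI_of_le (z := 4 * y 0 - 1) (by linarith)]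
      exact ⟨rfl, rfl⟩
    · rw [clI_of_ge (by linarith), clI_of_ge (by linarith), clI_of_ge (z := 4 * x 0 - 1)
        (by linarith), clI_of_ge (z := 4 * y 0 - 1) (by linarith)]
      exact ⟨rfl, rfl⟩
  constructor
  · intro x _ hx hx' y _ hy hy' hl
    obtain ⟨k1, k2⟩ := key x hx hx' y hy hy'
    cases a with
    | none => rfl
    | some i =>
      show (if i = k then (PP.ofGL b (cubeAt (4 * x 0 + 3) x)).1.1 i
        else (PP.ofGL b' (cubeAt (4 * x 0 - 1) x)).1.1 i) =
        (if i = k then (PP.ofGL b (cubeAt (4 * y 0 + 3) y)).1.1 i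
        else (PP.ofGL b' (cubeAt (4 * y 0 - 1) y)).1.1 i)
      rw [cubeAt_congr hl k1, cubeAt_congr hl k2]
  · intro x _ hx hx' y _ hy hy' hl
    obtain ⟨k1, k2⟩ := key x hx hx' y hy hy'
    cases a with
    | none => rfl
    | some i =>
      show (if i = k then ((PP.ofGL b (cubeAt (4 * x 0 + 3) x)).2 i : Vk d)
        else ((PP.ofGL b' (cubeAt (4 * x 0 - 1) x)).2 i : Vk d)) =
        (if i = k then ((PP.ofGL b (cubeAt (4 * y 0 + 3) y)).2 i : Vk d)
        else ((PP.ofGL b' (cubeAt (4 * y 0 - 1) y)).2 i : Vk d))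
      rw [cubeAt_congr hl k1, cubeAt_congr hl k2]

/-- The start data are data of a normal form. -/
theorem start_bData (hb : (frk d).OnlyMoves k b) (hb' : (frk d).Fixed k b') {ρ : ℝ}
    (hρ : ∀ (i : Fin r) (q : (Fin (d + 2) → I) × I),
      ‖(PP.ofGL (GenLoop.transAt 0 b b') q).1.1 i‖ < ρ) :
    BData (frk d).h (stB (frk d) b b' ρ k) (stN (frk d) b b' k) := by
  obtain ⟨B, N, h, -, -, h1, h2⟩ := start_fam (frk d) hb hb' hρ
  rw [← h1, ← h2]
  have h01 : (1 : ℝ) ∈ Icc (0 : ℝ) 1 := ⟨zero_le_one, le_rfl⟩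
  exact ⟨fun a => (h.cb a).comp (f := fun q : Unit × Pk d => ((1 : ℝ), q.2))
      (by fun_prop) (fun _ hq => ⟨h01, hq.2⟩),
    fun a => (h.cn a).comp (f := fun q : Unit × Pk d => ((1 : ℝ), q.2))
      (by fun_prop) (fun _ hq => ⟨h01, hq.2⟩),
    fun _ _ => h.nn 1 h01, fun _ _ => h.inj 1 h01, fun _ _ => h.bh 1 h01,
    fun _ _ => h.nh 1 h01⟩

/-- **Start of the slide.** -/
theorem start_veq (hhom : BlockHom) (hadm : BlockAdm) (hb : (frk d).OnlyMoves k b)
    (hb' : (frk d).Fixed k b') {ρ : ℝ}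
    (hρ : ∀ (i : Fin r) (q : (Fin (d + 2) → I) × I),
      ‖(PP.ofGL (GenLoop.transAt 0 b b') q).1.1 i‖ < ρ)
    {x : NBr d r} (hx : hcl x.p = hcl (GenLoop.transAt 0 b b')) {ε R M : ℝ}
    (ha : Adm ε R M (stB (frk d) b b' ρ k)) :
    VEq (Nfb d r x) (NN (frk d).h ε R M (stB (frk d) b b' ρ k) (stN (frk d) b b' k)) := by
  obtain ⟨B, N, h, h1, h2, h3, h4⟩ := start_fam (frk d) hb hb' hρ
  -- the product with its own parameters
  have h5 := bData_of_braid (GenLoop.transAt 0 b b') hρ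
  have h6 : BData (frk d).h (shB (frk d) (GenLoop.transAt 0 b b') ρ)
      (nuB (frk d) (GenLoop.transAt 0 b b')) := by
    have h00 : (0 : ℝ) ∈ Icc (0 : ℝ) 1 := ⟨le_rfl, zero_le_one⟩
    exact ⟨fun a => (h5.cb a).comp (f := fun q : Unit × Pk d => ((0 : ℝ), q.2))
        (by fun_prop) (fun _ hq => ⟨h00, hq.2⟩),
      fun a => (h5.cn a).comp (f := fun q : Unit × Pk d => ((0 : ℝ), q.2))
        (by fun_prop) (fun _ hq => ⟨h00, hq.2⟩),
      fun _ _ => h5.nn 0 h00, fun _ _ => h5.inj 0 h00, fun _ _ => h5.bh 0 h00,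
      fun _ _ => h5.nh 0 h00⟩
  obtain ⟨ε₁, R₁, M₁, h7⟩ := hadm d _ _ _ h6
  have h8 : VEq (Nfb d r x) (Nfb d r ⟨GenLoop.transAt 0 b b', ρ, ε₁, R₁, M₁, hρ, h7⟩) :=
    veq_of_homotopic hhom hadm hx
  have h9 := hhom d (Option (Fin r)) B N ε₁ R₁ M₁ ε R M h (by rw [h1]; exact h7)
    (by rw [h3]; exact ha)
  rw [h1, h2, h3, h4] at h9
  exact h8.trans h9

end Std

/-! ### Null-homotopies over the cube -/

section Null

variable {r : ℕ} [NeZero m] {b b' : φ.BrL (Fin m) r} {i k : Fin r}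

/-- **Null-homotopies of the differences of the start data.** -/
theorem null_cube (hi : i ≠ k) (hb' : φ.Fixed k b') (h : φ.clsU (Fin m) i k (hcl b') = 1)
    (ρ : ℝ) :
    ∃ E : C(ℝ × (Fin (m + 1) → ℝ), V), (∀ z, E z ≠ 0) ∧
      (∀ x, E (0, x) = φ.base r k - stB φ b b' ρ k (some i) x) ∧
      (∀ x, E (1, x) = φ.base r k - φ.base r i) ∧
      (∀ s x, x 0 ≤ 1 / 4 → E (s, x) = φ.base r k - φ.base r i) ∧
      (∀ s x, (∃ l, l ≠ Fin.last m ∧ |x l| = 1) → E (s, x) = φ.base r k - φ.base r i) ∧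
      (∀ s x, x (Fin.last m) = 1 → E (s, x) = φ.base r k - φ.base r i) ∧
      (∀ s x, x (Fin.last m) ≤ -1 → ⟪φ.h, E (s, x)⟫ = 0) := by
  obtain ⟨E, E0, E1, E2, E3, E4, E5⟩ := φ.exists_null_pair hi h
  have hc : Continuous fun z : ℝ × (Fin (m + 1) → ℝ) => E (clI z.1, cubeAt (4 * z.2 0 - 1) z.2) := by
    refine E.continuous.comp ((continuous_clI.comp continuous_fst).prodMk ?_)
    exact (continuous_cubeAt (f := fun x : Fin (m + 1) → ℝ => 4 * x 0 - 1) (by fun_prop)).comp
      continuous_snd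
  refine ⟨⟨_, hc⟩, fun z => E0 _, fun x => ?_, fun x => ?_, fun s x hx => ?_,
    fun s x hx => ?_, fun s x hx => ?_, fun s x hx => ?_⟩
  · show E (clI 0, cubeAt (4 * x 0 - 1) x) = _
    rw [clI_of_le le_rfl, E1]
    have h1 : (PP.ofGL b' (cubeAt (4 * x 0 - 1) x)).1.1 k = φ.base r k :=
      (hb' (cubeAt (4 * x 0 - 1) x).1 (cubeAt (4 * x 0 - 1) x).2).1
    rw [h1]
    show _ = φ.base r k - (if i = k then _ else (PP.ofGL b' (cubeAt (4 * x 0 - 1) x)).1.1 i)
    rw [if_neg hi]
  · show E (clI 1, cubeAt (4 * x 0 - 1) x) = _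
    rw [clI_of_ge le_rfl, E2]
  · exact E3 _ _ (cubeAt_boundary (Or.inl (by linarith)) x) _
  · obtain ⟨l, hl, hl1⟩ := hx
    refine E3 _ _ ?_ _
    obtain ⟨l', rfl⟩ : ∃ l' : Fin m, l'.castSucc = l :=
      ⟨l.castPred hl, Fin.castSucc_castPred l hl⟩
    rcases eq_or_ne l' 0 with h0 | h0
    · subst h0
      have h00 : ((0 : Fin m).castSucc : Fin (m + 1)) = 0 := rfl
      rw [h00] at hl1
      refine cubeAt_boundary ?_ x
      rcases (abs_eq zero_le_one).1 hl1 with h1 | h1
      · exact Or.inr (by show 1 ≤ 4 * x 0 - 1; rw [h1]; norm_num)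
      · exact Or.inl (by show 4 * x 0 - 1 ≤ 0; rw [h1]; norm_num)
    · refine ⟨l', ?_⟩
      show Function.update (cubeM x).1 0 (clI (4 * x 0 - 1)) l' = 0 ∨
        Function.update (cubeM x).1 0 (clI (4 * x 0 - 1)) l' = 1
      rw [Function.update_of_ne h0]
      show clI ((x l'.castSucc + 1) / 2) = 0 ∨ clI ((x l'.castSucc + 1) / 2) = 1
      rcases (abs_eq zero_le_one).1 hl1 with h1 | h1
      · exact Or.inr (clI_of_ge (by rw [h1]; norm_num))
      · exact Or.inl (clI_of_le (by rw [h1]; norm_num))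
  · have h1 : cubeAt (4 * x 0 - 1) x = ((cubeAt (4 * x 0 - 1) x).1, (1 : I)) := by
      refine Prod.ext rfl ?_
      show clI ((x (Fin.last m) + 1) / 2) = 1
      exact clI_of_ge (by rw [hx]; norm_num)
    show E (clI s, cubeAt (4 * x 0 - 1) x) = _
    rw [h1]
    exact E4 _ _
  · have h1 : cubeAt (4 * x 0 - 1) x = ((cubeAt (4 * x 0 - 1) x).1, (0 : I)) := by
      refine Prod.ext rfl ?_
      show clI ((x (Fin.last m) + 1) / 2) = 0
      exact clI_of_le (by linarith)
    show ⟪φ.h, E (clI s, cubeAt (4 * x 0 - 1) x)⟫ = 0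
    rw [h1]
    exact E5 _ _

end Null

end Vale.Agent.P268.T.H839
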